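import Vale.Agent.P354E.GeoDefs
import Vale.Agent.P354E.Calc

/-!
Line derivatives, and the connection of the spacetime of a reduced solution in the charts in which
the first two coordinates are u and v.
-/

open scoped ContDiff
open MeasureTheory Set Filter Topology

namespace Vale.Agent.P354G

open Vale.Agent.P354E
open Vale.Agent.P354n (R4 Spc On tgt co inv IsConn Riem IsSmooth)

/-- f has the derivative d at y in the direction a -/
def LD (f : R4 → ℝ) (y a : R4) (d : ℝ) : Prop := HasDerivAt (fun t : ℝ => f (y + t • a)) d 0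

section Rules

variable {f g : R4 → ℝ} {y a : R4} {d d' : ℝ}

lemma LD.eq (h : LD f y a d) : lineDeriv ℝ f y a = d := HasDerivAt.deriv h

lemma LD.deriv_eq (h : LD f y a d) : P354n.deriv f y a = d := HasDerivAt.deriv h

lemma LD.congr_d (h : LD f y a d) (e : d = d') : LD f y a d' := e ▸ h

lemma LD.add (h : LD f y a d) (h' : LD g y a d') : LD (fun y => f y + g y) y a (d + d') :=
  HasDerivAt.add h h'

lemma LD.sub (h : LD f y a d) (h' : LD g y a d') : LD (fun y => f y - g y) y a (d - d') :=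
  HasDerivAt.sub h h'

lemma LD.neg (h : LD f y a d) : LD (fun y => -f y) y a (-d) := HasDerivAt.neg h

lemma LD.const (c : ℝ) (y a : R4) : LD (fun _ => c) y a 0 := hasDerivAt_const _ _

lemma LD.mul (h : LD f y a d) (h' : LD g y a d') :
    LD (fun y => f y * g y) y a (d * g y + f y * d') := by
  have := HasDerivAt.mul h h'
  simp only [zero_smul, add_zero] at this
  exact this

lemma LD.mul_const (h : LD f y a d) (c : ℝ) : LD (fun y => f y * c) y a (d * c) :=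
  HasDerivAt.mul_const h c

lemma LD.const_mul (c : ℝ) (h : LD f y a d) : LD (fun y => c * f y) y a (c * d) :=
  HasDerivAt.const_mul c h

lemma LD.div_const (h : LD f y a d) (c : ℝ) : LD (fun y => f y / c) y a (d / c) :=
  HasDerivAt.div_const h c

lemma LD.div (h : LD f y a d) (h' : LD g y a d') (hg : g y ≠ 0) :
    LD (fun y => f y / g y) y a ((d * g y - f y * d') / g y ^ 2) := by
  have := HasDerivAt.div h h' (by simpa only [zero_smul, add_zero] using hg)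
  simp only [zero_smul, add_zero] at this
  exact this

lemma LD.sq (h : LD f y a d) : LD (fun y => f y ^ 2) y a (2 * f y * d) := by
  have := HasDerivAt.pow h 2
  simp only [zero_smul, add_zero] at this
  refine LD.congr_d this ?_
  simp

lemma LD.of_fderiv {F : R4 →L[ℝ] ℝ} (h : HasFDerivAt f F y) (a : R4) : LD f y a (F a) :=
  h.hasLineDerivAt a

lemma LD.congr_ev (h : LD f y a d) (e : g =ᶠ[𝓝 y] f) : LD g y a d := by
  refine HasDerivAt.congr_of_eventuallyEq h ?_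
  have hc : Continuous fun t : ℝ => y + t • a := by fun_prop
  have : Tendsto (fun t : ℝ => y + t • a) (𝓝 0) (𝓝 y) := by
    simpa only [zero_smul, add_zero] using hc.tendsto 0
  exact this.eventually e

lemma ld_3 (y a : R4) : LD (fun y => y.2.2.1) y a a.2.2.1 := by
  have : HasDerivAt (fun t : ℝ => y.2.2.1 + t * a.2.2.1) (1 * a.2.2.1) 0 :=
    ((hasDerivAt_id (0 : ℝ)).mul_const _).const_add _
  rw [one_mul] at this
  exact this

lemma ld_4 (y a : R4) : LD (fun y => y.2.2.2) y a a.2.2.2 := by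
  have : HasDerivAt (fun t : ℝ => y.2.2.2 + t * a.2.2.2) (1 * a.2.2.2) 0 :=
    ((hasDerivAt_id (0 : ℝ)).mul_const _).const_add _
  rw [one_mul] at this
  exact this

end Rules

lemma du_fderiv {f : P2 → ℝ} {q : P2} (h : DifferentiableAt ℝ f q) :
    Du f q (fderiv ℝ f q (1, 0)) := by
  have h1 : HasDerivAt (fun s : ℝ => ((s, q.2) : P2)) (1, 0) q.1 :=
    (hasDerivAt_id _).prodMk (hasDerivAt_const _ _)
  exact HasFDerivAt.comp_hasDerivAt q.1 (f := fun s : ℝ => ((s, q.2) : P2)) h.hasFDerivAt h1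

lemma dv_fderiv {f : P2 → ℝ} {q : P2} (h : DifferentiableAt ℝ f q) :
    Dv f q (fderiv ℝ f q (0, 1)) := by
  have h1 : HasDerivAt (fun s : ℝ => ((q.1, s) : P2)) (0, 1) q.2 :=
    (hasDerivAt_const _ _).prodMk (hasDerivAt_id _)
  exact HasFDerivAt.comp_hasDerivAt q.2 (f := fun s : ℝ => ((q.1, s) : P2)) h.hasFDerivAt h1

lemma fderiv_p2 {f : P2 → ℝ} {q : P2} {fu fv : ℝ} (h : DifferentiableAt ℝ f q) (hu : Du f q fu)
    (hv : Dv f q fv) (A : P2) : fderiv ℝ f q A = fu * A.1 + fv * A.2 := by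
  have e1 : fderiv ℝ f q (1, 0) = fu := HasDerivAt.unique (du_fderiv h) hu
  have e2 : fderiv ℝ f q (0, 1) = fv := HasDerivAt.unique (dv_fderiv h) hv
  have : A = A.1 • ((1, 0) : P2) + A.2 • ((0, 1) : P2) := by ext <;> simp
  rw [this, map_add, map_smul, map_smul, e1, e2]
  simp only [smul_eq_mul, Prod.fst_add, Prod.smul_fst, Prod.snd_add, Prod.smul_snd]
  ring

/-- the projection to the first two coordinates as a linear map -/
noncomputable def p2L : R4 →L[ℝ] P2 :=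
  (ContinuousLinearMap.fst ℝ ℝ (ℝ × ℝ × ℝ)).prod
    ((ContinuousLinearMap.fst ℝ ℝ (ℝ × ℝ)).comp (ContinuousLinearMap.snd ℝ ℝ (ℝ × ℝ × ℝ)))

lemma p2L_apply (y : R4) : p2L y = p2 y := rfl

lemma p2_fderiv (y : R4) : HasFDerivAt p2 p2L y := p2L.hasFDerivAt

lemma p2_smooth : ContDiff ℝ ∞ p2 := p2L.contDiff

lemma ld_p2 {f : P2 → ℝ} {y : R4} {fu fv : ℝ} (h : DifferentiableAt ℝ f (p2 y))
    (hu : Du f (p2 y) fu) (hv : Dv f (p2 y) fv) (a : R4) :
    LD (fun z => f (p2 z)) y a (fu * a.1 + fv * a.2.1) := by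
  have := LD.of_fderiv (h.hasFDerivAt.comp y (p2_fderiv y)) a
  refine LD.congr_d this ?_
  exact fderiv_p2 h hu hv (p2 a)

/-! ### The sphere -/

/-- the denominator -/
def sd (y : R4) : ℝ := 1 + y.2.2.1 ^ 2 + y.2.2.2 ^ 2

lemma sd_pos (y : R4) : 0 < sd y := by unfold sd; positivity

/-- half of the logarithmic derivatives of the conformal factor -/
noncomputable def s3 (y : R4) : ℝ := -2 * y.2.2.1 / sd y
noncomputable def s4 (y : R4) : ℝ := -2 * y.2.2.2 / sd y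

/-- the Euclidean product of the angular parts -/
def ip (a b : R4) : ℝ := a.2.2.1 * b.2.2.1 + a.2.2.2 * b.2.2.2

/-- the one form with components s3, s4 -/
noncomputable def sa (y a : R4) : ℝ := s3 y * a.2.2.1 + s4 y * a.2.2.2

lemma cf_eq (y : R4) : cf y = 4 / sd y ^ 2 := rfl

lemma cf_pos (y : R4) : 0 < cf y := by unfold cf; positivity

lemma ld_sd (y a : R4) : LD sd y a (2 * y.2.2.1 * a.2.2.1 + 2 * y.2.2.2 * a.2.2.2) := by
  have := ((LD.const 1 y a).add (ld_3 y a).sq).add (ld_4 y a).sq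
  refine LD.congr_d this ?_
  ring

lemma ld_cf (y a : R4) : LD cf y a (2 * cf y * sa y a) := by
  have h := (sd_pos y).ne'
  have := (LD.const 4 y a).div (ld_sd y a).sq (pow_ne_zero 2 h)
  refine LD.congr_d this ?_
  simp only [cf_eq, sa, s3, s4]
  field_simp
  ring

lemma ld_s3 (y a : R4) : LD s3 y a (-2 * a.2.2.1 / sd y + s3 y * sa y a) := by
  have h := (sd_pos y).ne'
  have := (LD.const_mul (-2) (ld_3 y a)).div (ld_sd y a) h
  refine LD.congr_d this ?_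
  simp only [sa, s3, s4]
  field_simp
  ring

lemma ld_s4 (y a : R4) : LD s4 y a (-2 * a.2.2.2 / sd y + s4 y * sa y a) := by
  have h := (sd_pos y).ne'
  have := (LD.const_mul (-2) (ld_4 y a)).div (ld_sd y a) h
  refine LD.congr_d this ?_
  simp only [sa, s3, s4]
  field_simp
  ring

/-! ### The fields -/

/-- a smooth solution on the whole plane -/
structure SS (e : ℝ) (S : Fld) : Prop where
  sol : IsSol e S univ
  sm : Smooth S univ

lemma dAt {f : P2 → ℝ} (h : ContDiffOn ℝ ∞ f univ) (q : P2) : DifferentiableAt ℝ f q :=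
  (contDiffOn_univ.1 h).differentiable (by simp) q

namespace SS

variable {e : ℝ} {S : Fld}

lemma at' (h : SS e S) (q : P2) : SolAt e S q := h.sol.sol q trivial

lemma O_sm (h : SS e S) : ContDiffOn ℝ ∞ S.O univ := h.sm.w.exp

lemma ld_r (h : SS e S) (y a : R4) :
    LD (fun z => S.r (p2 z)) y a (S.n (p2 y) * a.1 + S.l (p2 y) * a.2.1) :=
  ld_p2 (dAt h.sm.r _) (h.at' _).r_u (h.at' _).r_v a

lemma ld_p (h : SS e S) (y a : R4) :
    LD (fun z => S.p (p2 z)) y a (S.pu (p2 y) * a.1 + S.pv (p2 y) * a.2.1) :=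
  ld_p2 (dAt h.sm.p _) (h.at' _).p_u (h.at' _).p_v a

lemma ld_O (h : SS e S) (y a : R4) :
    LD (fun z => S.O (p2 z)) y a
      (S.O (p2 y) * S.wu (p2 y) * a.1 + S.O (p2 y) * S.wv (p2 y) * a.2.1) :=
  ld_p2 (dAt h.O_sm _) (h.at' _).O_u (h.at' _).O_v a

lemma ld_l (h : SS e S) (y a : R4) :
    LD (fun z => S.l (p2 z)) y a (G1 e S (p2 y) * a.1 +
      (S.l (p2 y) * S.wv (p2 y) - S.r (p2 y) * S.pv (p2 y) ^ 2) * a.2.1) :=
  ld_p2 (dAt h.sm.l _) (h.at' _).l_u (h.at' _).l_v a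

lemma ld_n (h : SS e S) (y a : R4) :
    LD (fun z => S.n (p2 z)) y a
      ((S.n (p2 y) * S.wu (p2 y) - S.r (p2 y) * S.pu (p2 y) ^ 2) * a.1 + G1 e S (p2 y) * a.2.1) :=
  ld_p2 (dAt h.sm.n _) (h.at' _).n_u (h.at' _).n_v a

lemma ld_wu (h : SS e S) (y a : R4) :
    LD (fun z => S.wu (p2 z)) y a (fderiv ℝ S.wu (p2 y) (1, 0) * a.1 + G3 e S (p2 y) * a.2.1) :=
  ld_p2 (dAt h.sm.wu _) (du_fderiv (dAt h.sm.wu _)) (h.at' _).wu_v a

lemma ld_wv (h : SS e S) (y a : R4) :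
    LD (fun z => S.wv (p2 z)) y a (G3 e S (p2 y) * a.1 + fderiv ℝ S.wv (p2 y) (0, 1) * a.2.1) :=
  ld_p2 (dAt h.sm.wv _) (h.at' _).wv_u (dv_fderiv (dAt h.sm.wv _)) a

lemma ld_pu (h : SS e S) (y a : R4) :
    LD (fun z => S.pu (p2 z)) y a (fderiv ℝ S.pu (p2 y) (1, 0) * a.1 + G2 S (p2 y) * a.2.1) :=
  ld_p2 (dAt h.sm.pu _) (du_fderiv (dAt h.sm.pu _)) (h.at' _).pu_v a

lemma ld_pv (h : SS e S) (y a : R4) :
    LD (fun z => S.pv (p2 z)) y a (G2 S (p2 y) * a.1 + fderiv ℝ S.pv (p2 y) (0, 1) * a.2.1) :=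
  ld_p2 (dAt h.sm.pv _) (h.at' _).pv_u (dv_fderiv (dAt h.sm.pv _)) a

end SS

/-! ### The metric and the connection -/

/-- the metric -/
noncomputable def g0 (S : Fld) (y a b : R4) : ℝ :=
  -(S.O (p2 y) / 2) * (a.1 * b.2.1 + a.2.1 * b.1) + S.r (p2 y) ^ 2 * cf y * ip a b

lemma g0_eq (S : Fld) (σ : Bool) : (sp S).g (PC.id, σ) = g0 S := by
  funext y a b
  exact gS_id S σ y a b

/-- the Maxwell field -/
noncomputable def F0 (e : ℝ) (S : Fld) (y a b : R4) : ℝ :=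
  -(e * S.O (p2 y) / (2 * S.r (p2 y) ^ 2)) * (a.1 * b.2.1 - a.2.1 * b.1)

lemma F0_eq (e : ℝ) (S : Fld) (σ : Bool) : FF e S (PC.id, σ) = F0 e S := by
  funext y a b
  exact FF_id e S σ y a b

/-- the connection -/
noncomputable def Gam (S : Fld) (y b c : R4) : R4 :=
  (S.wu (p2 y) * b.1 * c.1 + 2 / S.O (p2 y) * S.r (p2 y) * S.l (p2 y) * cf y * ip b c,
   S.wv (p2 y) * b.2.1 * c.2.1 + 2 / S.O (p2 y) * S.r (p2 y) * S.n (p2 y) * cf y * ip b c,
   S.n (p2 y) / S.r (p2 y) * (b.1 * c.2.2.1 + b.2.2.1 * c.1) +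
     S.l (p2 y) / S.r (p2 y) * (b.2.1 * c.2.2.1 + b.2.2.1 * c.2.1) +
     b.2.2.1 * sa y c + c.2.2.1 * sa y b - ip b c * s3 y,
   S.n (p2 y) / S.r (p2 y) * (b.1 * c.2.2.2 + b.2.2.2 * c.1) +
     S.l (p2 y) / S.r (p2 y) * (b.2.1 * c.2.2.2 + b.2.2.2 * c.2.1) +
     b.2.2.2 * sa y c + c.2.2.2 * sa y b - ip b c * s4 y)

/-- the connection with the index lowered -/
noncomputable def Low (S : Fld) (b c d y : R4) : ℝ :=
  S.O (p2 y) * S.wu (p2 y) * (-(b.1 * c.1 * d.2.1) / 2) +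
  S.O (p2 y) * S.wv (p2 y) * (-(b.2.1 * c.2.1 * d.1) / 2) +
  S.r (p2 y) * S.l (p2 y) * cf y * (b.2.1 * ip c d + c.2.1 * ip b d - d.2.1 * ip b c) +
  S.r (p2 y) * S.n (p2 y) * cf y * (b.1 * ip c d + c.1 * ip b d - d.1 * ip b c) +
  S.r (p2 y) ^ 2 * cf y * s3 y * (c.2.2.1 * ip b d + b.2.2.1 * ip c d - d.2.2.1 * ip b c) +
  S.r (p2 y) ^ 2 * cf y * s4 y * (c.2.2.2 * ip b d + b.2.2.2 * ip c d - d.2.2.2 * ip b c)

variable {e : ℝ} {S : Fld}

lemma low_eq (h : SS e S) (y b c d : R4) : g0 S y (Gam S y b c) d = Low S b c d y := by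
  have h1 := (h.at' (p2 y)).ne
  have h2 := O_ne S (p2 y)
  simp only [g0, Gam, Low, ip, sa]
  field_simp
  ring

lemma ld_g0 (h : SS e S) (y a b c : R4) : LD (fun z => g0 S z b c) y a
    (-((S.O (p2 y) * S.wu (p2 y) * a.1 + S.O (p2 y) * S.wv (p2 y) * a.2.1) / 2) *
      (b.1 * c.2.1 + b.2.1 * c.1) +
      (2 * S.r (p2 y) * (S.n (p2 y) * a.1 + S.l (p2 y) * a.2.1) * cf y +
        S.r (p2 y) ^ 2 * (2 * cf y * sa y a)) * ip b c) :=
  ((((h.ld_O y a).div_const 2).neg.mul_const _)).add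
    (((h.ld_r y a).sq.mul (ld_cf y a)).mul_const _)

lemma isConn (h : SS e S) (y : R4) : IsConn (g0 S) (Gam S) y := by
  intro a b c
  rw [low_eq h, (ld_g0 h y a b c).deriv_eq, (ld_g0 h y b a c).deriv_eq, (ld_g0 h y c a b).deriv_eq]
  simp only [Low, ip, sa]
  ring

end Vale.Agent.P354G
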