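import Vale.Agent.P354G.EMS

/-!
The data induced on the initial hypersurface.
-/

open scoped ContDiff
open MeasureTheory Set Filter Topology

namespace Vale.Agent.P354G

open Vale.Agent.P354E
open Vale.Agent.P354n (R4 Spc On tgt co inv IsConn Riem IsSmooth IsFutureCurve)

variable {S : Fld} {d : Dat}

lemma dd_zero {S T : Fld} {q : P2} (h : dd S T q = 0) :
    S.r q = T.r q ∧ S.w q = T.w q ∧ S.p q = T.p q ∧ S.l q = T.l q ∧ S.n q = T.n q ∧
      S.wu q = T.wu q ∧ S.wv q = T.wv q ∧ S.pu q = T.pu q ∧ S.pv q = T.pv q := by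
  unfold dd at h
  have h1 := abs_nonneg (S.r q - T.r q)
  have h2 := abs_nonneg (S.w q - T.w q)
  have h3 := abs_nonneg (S.p q - T.p q)
  have h4 := abs_nonneg (S.l q - T.l q)
  have h5 := abs_nonneg (S.n q - T.n q)
  have h6 := abs_nonneg (S.wu q - T.wu q)
  have h7 := abs_nonneg (S.wv q - T.wv q)
  have h8 := abs_nonneg (S.pu q - T.pu q)
  have h9 := abs_nonneg (S.pv q - T.pv q)
  refine ⟨?_, ?_, ?_, ?_, ?_, ?_, ?_, ?_, ?_⟩ <;> rw [← sub_eq_zero, ← abs_eq_zero] <;> linarith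

/-- the embedding in coordinates -/
noncomputable def JL : (ℝ × ℝ × ℝ) →L[ℝ] R4 :=
  (-ContinuousLinearMap.fst ℝ ℝ (ℝ × ℝ)).prod (ContinuousLinearMap.id ℝ (ℝ × ℝ × ℝ))

lemma JL_apply (z : ℝ × ℝ × ℝ) : JL z = (-z.1, z.1, z.2.1, z.2.2) := rfl

lemma JL_line (z a : ℝ × ℝ × ℝ) : lineDeriv ℝ JL z a = (-a.1, a.1, a.2.1, a.2.2) := by
  rw [JL.differentiableAt.lineDeriv_eq_fderiv, JL.fderiv]
  rfl

lemma jj_embedding (S : Fld) : IsEmbedding (jj S) := by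
  have h1 : Continuous (fun x : P2 × S2 => ((x.1.2, x.2) : ℝ × S2)) := by fun_prop
  have h2 : Continuous (fun z : ℝ × S2 => (((-z.1, z.1), z.2) : P2 × S2)) := by fun_prop
  exact Function.LeftInverse.isEmbedding (f := fun x : P2 × S2 => ((x.1.2, x.2) : ℝ × S2))
    (g := jj S) (fun _ => rfl) h1 h2

/-- everything in IsDev except the Cauchy property -/
theorem isDev {M e om : ℝ} (hd : IsData M e om d) (h : SS d.e S)
    (hz : ∀ x : ℝ, dd S (red d) (-x, x) = 0)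
    (hc : ∀ a, IsFutureCurve (sp S) 0 (Ioo 0 1) a →
      (∀ x, ¬ Tendsto a (𝓝[<] 1) (𝓝 x) ∧ ¬ Tendsto a (𝓝[>] 0) (𝓝 x)) →
      ∃! t, t ∈ Ioo (0 : ℝ) 1 ∧ a t ∈ range (jj S)) :
    IsDev d (sp S) (phi S) (FF d.e S) (jj S) where
  embedding := jj_embedding S
  cauchy := hc
  field x := (dd_zero (hz x.1)).2.2.1
  induced σ z := by
    obtain ⟨ha, hb⟩ := hd.pos z.1
    obtain ⟨k1, k2, -, k4, k5, k6, k7, k8, k9⟩ := dd_zero (hz z.1)
    simp only [red] at k1 k2 k4 k5 k6 k7 k8 k9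
    have kO : S.O (-z.1, z.1) = d.a z.1 := by
      unfold Fld.O; rw [k2, Real.exp_log ha]
    have hJ : (JL : ℝ × ℝ × ℝ → R4) = fun z' : ℝ × ℝ × ℝ =>
        co (M := sp S) (PC.id, σ) (jj S (z'.1, st σ z'.2)) := by
      funext z'
      show _ = ((-z'.1, z'.1, sti σ (st σ z'.2)) : R4)
      rw [sti_st]
      rfl
    obtain ⟨A, hA, hA2⟩ : ∃ A, 0 < A ∧ d.a z.1 = A ^ 2 :=
      ⟨√(d.a z.1), Real.sqrt_pos.2 ha, (Real.sq_sqrt ha.le).symm⟩
    obtain ⟨B, hB, hB2⟩ : ∃ B, 0 < B ∧ d.b z.1 = B ^ 2 :=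
      ⟨√(d.b z.1), Real.sqrt_pos.2 hb, (Real.sq_sqrt hb.le).symm⟩
    have sA : √(d.a z.1) = A := by rw [hA2, Real.sqrt_sq hA.le]
    have sB : √(d.b z.1) = B := by rw [hB2, Real.sqrt_sq hB.le]
    rw [sA] at k4 k5 k6 k7 k8 k9
    rw [sB] at k1 k4 k5
    have hp : p2 (JL z) = (-z.1, z.1) := rfl
    have hcf : cf (JL z) = 4 / (1 + z.2.1 ^ 2 + z.2.2 ^ 2) ^ 2 := rfl
    have hs : (1 + z.2.1 ^ 2 + z.2.2 ^ 2) ≠ 0 := by positivity
    refine ⟨(PC.id, σ), JL, Gam S, (1 / A, 1 / A, 0, 0), hJ, ⟨mem_univ _, st_src _ _⟩,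
      JL.contDiff.contDiffAt, ?_⟩
    rw [g0_eq, F0_eq, sp_X, XS_id]
    refine ⟨isConn h _, ?_, ?_, ?_, fun a b => ?_⟩
    · simp only [g0, ip, hp, kO, hA2]
      field_simp
      ring
    · simp only [g0, ip, hp, kO, hA2]
      have : -(A ^ 2 / 2) * (1 / A * 1 + 1 / A * 1) + S.r (-z.1, z.1) ^ 2 * cf (JL z) *
        (0 * 0 + 0 * 0) = -A := by field_simp; ring
      rw [this]
      linarith
    · refine (psi_eq h (JL z) _).trans ?_
      simp only [hp, k8, k9]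
      field_simp
      ring
    · have e0 : lineDeriv ℝ (fun z' => lineDeriv ℝ JL z' b) z a = 0 := by
        simp only [JL_line]
        exact (hasLineDerivAt_iff_isLittleO_nhds_zero.2 (by simp)).lineDeriv
      rw [e0, zero_add, JL_line, JL_line, sA]
      simp only [g0, F0, Gam, ip, P354E.sym2, hp, hcf, kO, hA2, hB2, k1, k4, k5, k6, k7]
      refine ⟨?_, ?_, ?_, ?_, ?_⟩ <;> field_simp <;> ring

end Vale.Agent.P354G
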