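import Vale.Agent.P354G.Ends
import Vale.Agent.P354F.Geo2

namespace Vale.Agent.P354G

/-- **The geometric block.** -/
theorem bGeo : P354E.BGeo := P354F.bGeo' gFront gCorner

end Vale.Agent.P354G
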