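import Vale.Agent.P354G.Coord

/-!
The double null form of the metric in the chart of a quadrant.
-/

open scoped ContDiff
open MeasureTheory Set Filter Topology

namespace Vale.Agent.P354G

open Vale.Agent.P354E
open Vale.Agent.P354n (R4 Spc On tgt co inv IsDNBox InLp form du dv)

/-- the quotient of Omega^2 and its values on the two boundary rays -/
noncomputable def f3 (S : Fld) (u0 v0 : ℝ) (x : P2) : ℝ :=
  Real.exp (S.w x - S.w (x.1, v0) - S.w (u0, x.2))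

lemma f3_eq (S : Fld) (u0 v0 : ℝ) (x : P2) :
    f3 S u0 v0 x = S.O x / (S.O (x.1, v0) * S.O (u0, x.2)) := by
  simp only [f3, Fld.O, Real.exp_sub, div_div]

noncomputable def CA (S : Fld) (Ui Wi : ℝ → ℝ) (y : R4) : ℝ := S.r (iq Ui Wi y) ^ 2 * cf y
noncomputable def CB (S : Fld) (u0 v0 : ℝ) (Ui Wi : ℝ → ℝ) (y : R4) : ℝ := f3 S u0 v0 (iq Ui Wi y)

/-- the coefficients of the double null form -/
noncomputable def CC (S : Fld) (u0 v0 : ℝ) (Ui Wi : ℝ → ℝ) (i : ℕ) : R4 → ℝ :=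
  if i = 0 ∨ i = 2 then CA S Ui Wi else if i = 3 then CB S u0 v0 Ui Wi else fun _ => 0

section

variable (S : Fld) (u0 v0 : ℝ) (Ui Wi : ℝ → ℝ)

lemma CC_0 : CC S u0 v0 Ui Wi 0 = CA S Ui Wi := rfl
lemma CC_1 : CC S u0 v0 Ui Wi 1 = fun _ => 0 := rfl
lemma CC_2 : CC S u0 v0 Ui Wi 2 = CA S Ui Wi := rfl
lemma CC_3 : CC S u0 v0 Ui Wi 3 = CB S u0 v0 Ui Wi := rfl
lemma CC_4 : CC S u0 v0 Ui Wi 4 = fun _ => 0 := rfl
lemma CC_5 : CC S u0 v0 Ui Wi 5 = fun _ => 0 := rfl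
lemma CC_6 : CC S u0 v0 Ui Wi 6 = fun _ => 0 := rfl
lemma CC_7 : CC S u0 v0 Ui Wi 7 = fun _ => 0 := rfl

lemma CC_cases (i : ℕ) : CC S u0 v0 Ui Wi i = CA S Ui Wi ∨ CC S u0 v0 Ui Wi i = CB S u0 v0 Ui Wi ∨
    CC S u0 v0 Ui Wi i = fun _ => 0 := by
  unfold CC
  split_ifs <;> simp

end

lemma deriv_zero (x a : R4) : P354n.deriv (fun _ => (0 : ℝ)) x a = 0 := (LD.const 0 x a).deriv_eq

lemma abs_3 (a : R4) : |a.2.2.1| ≤ ‖a‖ :=
  ((norm_fst_le a.2.2).trans (norm_snd_le a.2)).trans (norm_snd_le a)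

lemma abs_4 (a : R4) : |a.2.2.2| ≤ ‖a‖ :=
  ((norm_snd_le a.2.2).trans (norm_snd_le a.2)).trans (norm_snd_le a)

lemma abs_1 (a : R4) : |a.1| ≤ ‖a‖ := norm_fst_le a

lemma abs_2 (a : R4) : |a.2.1| ≤ ‖a‖ := (norm_fst_le a.2).trans (norm_snd_le a)

lemma norm_sq_le {a : R4} (h1 : a.1 = 0) (h2 : a.2.1 = 0) : ‖a‖ ^ 2 ≤ ip a a := by
  have h3 : ‖a‖ ≤ √(ip a a) := by
    have k0 := Real.sqrt_nonneg (ip a a)
    have k3 : |a.2.2.1| ≤ √(ip a a) := Real.abs_le_sqrt (by unfold ip; nlinarith)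
    have k4 : |a.2.2.2| ≤ √(ip a a) := Real.abs_le_sqrt (by unfold ip; nlinarith)
    simp only [Prod.norm_def, h1, h2, norm_zero, Real.norm_eq_abs]
    exact max_le k0 (max_le k0 (max_le k3 k4))
  have h4 : 0 ≤ ip a a := by unfold ip; nlinarith
  calc ‖a‖ ^ 2 ≤ √(ip a a) ^ 2 := by gcongr
    _ = _ := Real.sq_sqrt h4

lemma one_le_sd (y : R4) : 1 ≤ sd y := by unfold sd; nlinarith

lemma cf_le (y : R4) : cf y ≤ 4 := by
  have := one_le_sd y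
  rw [cf_eq, div_le_iff₀ (by positivity)]
  nlinarith

lemma abs_s3 (y : R4) : |s3 y| ≤ 1 := by
  have := sd_pos y
  rw [s3, abs_div, abs_of_pos this, div_le_one this, abs_le]
  unfold sd
  constructor <;> nlinarith [sq_nonneg (y.2.2.1 - 1), sq_nonneg (y.2.2.1 + 1)]

lemma abs_s4 (y : R4) : |s4 y| ≤ 1 := by
  have := sd_pos y
  rw [s4, abs_div, abs_of_pos this, div_le_one this, abs_le]
  unfold sd
  constructor <;> nlinarith [sq_nonneg (y.2.2.2 - 1), sq_nonneg (y.2.2.2 + 1)]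

lemma abs_sa (y a : R4) : |sa y a| ≤ 2 * ‖a‖ := by
  have h1 : |s3 y * a.2.2.1| ≤ 1 * ‖a‖ := by
    rw [abs_mul]; exact mul_le_mul (abs_s3 y) (abs_3 a) (abs_nonneg _) zero_le_one
  have h2 : |s4 y * a.2.2.2| ≤ 1 * ‖a‖ := by
    rw [abs_mul]; exact mul_le_mul (abs_s4 y) (abs_4 a) (abs_nonneg _) zero_le_one
  unfold sa
  linarith [abs_add_le (s3 y * a.2.2.1) (s4 y * a.2.2.2)]

lemma cf_smooth : ContDiff ℝ ∞ cf := by
  unfold cf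
  exact ContDiff.div contDiff_const (by fun_prop) fun y => by positivity

variable {e : ℝ} {S : Fld} {u0 v0 K : ℝ} {ku kv U Ui W Wi : ℝ → ℝ}

lemma f3_smooth (h : SS e S) : ContDiff ℝ ∞ (f3 S u0 v0) := by
  have hw := contDiffOn_univ.1 h.sm.w
  exact ((hw.sub (hw.comp (by fun_prop : ContDiff ℝ ∞ fun x : P2 => ((x.1, v0) : P2)))).sub
    (hw.comp (by fun_prop : ContDiff ℝ ∞ fun x : P2 => ((u0, x.2) : P2)))).exp

lemma f3_u (h : SS e S) (x : P2) :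
    Du (f3 S u0 v0) x (f3 S u0 v0 x * (S.wu x - S.wu (x.1, v0))) := by
  have h1 : HasDerivAt (fun s => S.w (s, x.2) - S.w (s, v0) - S.w (u0, x.2))
      (S.wu x - S.wu (x.1, v0)) x.1 :=
    (HasDerivAt.sub (h.at' x).w_u (h.at' (x.1, v0)).w_u).sub_const _
  exact h1.exp

lemma f3_v (h : SS e S) (x : P2) :
    Dv (f3 S u0 v0) x (f3 S u0 v0 x * (S.wv x - S.wv (u0, x.2))) := by
  have h1 : HasDerivAt (fun s => S.w (x.1, s) - S.w (x.1, v0) - S.w (u0, s))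
      (S.wv x - S.wv (u0, x.2)) x.2 :=
    HasDerivAt.sub (HasDerivAt.sub_const _ (h.at' x).w_v) (h.at' (u0, x.2)).w_v
  exact h1.exp

variable (h : SS e S) (hU : Co (fun u => S.O (u, v0)) u0 U Ui)
  (hW : Co (fun v => S.O (u0, v)) v0 W Wi)

include h hU hW

lemma ld_CA {y : R4} (hy : y ∈ TT U W u0 v0) (a : R4) : LD (CA S Ui Wi) y a
    (2 * S.r (iq Ui Wi y) * (S.n (iq Ui Wi y) * ((S.O (Ui y.1, v0))⁻¹ * a.1) +
      S.l (iq Ui Wi y) * ((S.O (u0, Wi y.2.1))⁻¹ * a.2.1)) * cf y +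
      S.r (iq Ui Wi y) ^ 2 * (2 * cf y * sa y a)) :=
  (ld_iq hU hW hy (dAt h.sm.r _) (h.at' _).r_u (h.at' _).r_v a).sq.mul (ld_cf y a)

lemma ld_CB {y : R4} (hy : y ∈ TT U W u0 v0) (a : R4) : LD (CB S u0 v0 Ui Wi) y a
    (CB S u0 v0 Ui Wi y * (S.wu (iq Ui Wi y) - S.wu (Ui y.1, v0)) * ((S.O (Ui y.1, v0))⁻¹ * a.1) +
      CB S u0 v0 Ui Wi y * (S.wv (iq Ui Wi y) - S.wv (u0, Wi y.2.1)) *
        ((S.O (u0, Wi y.2.1))⁻¹ * a.2.1)) :=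
  ld_iq hU hW hy ((f3_smooth h).differentiable (by simp) _) (f3_u h _) (f3_v h _) a

lemma CA_dv {y : R4} (hy : y ∈ TT U W u0 v0) : P354n.deriv (CA S Ui Wi) y dv =
    2 * (S.r (iq Ui Wi y) * S.l (iq Ui Wi y) / S.O (u0, Wi y.2.1)) * cf y := by
  rw [(ld_CA h hU hW hy dv).deriv_eq]
  simp only [dv, sa]
  ring

lemma CC_smooth (i : ℕ) : ContDiffOn ℝ ∞ (CC S u0 v0 Ui Wi i) (TT U W u0 v0) := by
  rcases CC_cases S u0 v0 Ui Wi i with k | k | k <;> rw [k]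
  · exact (((contDiffOn_univ.1 h.sm.r).comp_contDiffOn (iq_smooth hU hW)).pow 2).mul
      cf_smooth.contDiffOn
  · exact (f3_smooth h).comp_contDiffOn (iq_smooth hU hW)
  · exact contDiffOn_const

omit h in
lemma g_form (σ : Bool) {y : R4} (hy : y ∈ TT U W u0 v0) (a : R4) :
    (sp S).g (qc hU hW, σ) y a a = form (CC S u0 v0 Ui Wi) y a := by
  show gS S (qc hU hW, σ) y a a = _
  have k1 := O_ne S (Ui y.1, v0)
  have k2 := O_ne S (u0, Wi y.2.1)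
  simp only [gS, bv_qc hU hW σ hy, bq_qc, form, P354n.h1, P354n.h2, CC_0, CC_1, CC_2, CC_3, CC_4,
    CC_5, CC_6, CC_7, CA, CB, f3_eq, P354n.cu, P354n.cv, P354n.c1, P354n.c2, iq]
  field_simp
  ring

omit h hU hW in
lemma form_ang {y a : R4} (h1 : a.1 = 0) :
    form (CC S u0 v0 Ui Wi) y a = CA S Ui Wi y * ip a a := by
  simp only [form, P354n.h1, P354n.h2, CC_0, CC_1, CC_2, CC_3, CC_4,
    CC_5, CC_6, CC_7, P354n.cu, P354n.cv, P354n.c1, P354n.c2, ip, h1]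
  ring

omit h hU hW in
lemma CB_eq (x : R4) : CB S u0 v0 Ui Wi x =
    S.O (Ui x.1, Wi x.2.1) / (S.O (Ui x.1, v0) * S.O (u0, Wi x.2.1)) := f3_eq _ _ _ _

variable (hE : QE e S u0 v0 K ku kv)

include hE

omit h in
lemma CB_bd {x : R4} (hy : x ∈ TT U W u0 v0) :
    0 < CB S u0 v0 Ui Wi x ∧ CB S u0 v0 Ui Wi x ≤ K ∧ 1 ≤ K * CB S u0 v0 Ui Wi x := by
  obtain ⟨hu, hv⟩ := iq_mem hU hW hy
  have p0 := O_pos S (Ui x.1, v0)
  have q0 := O_pos S (u0, Wi x.2.1)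
  refine ⟨Real.exp_pos _, ?_, ?_⟩
  · rw [CB_eq, div_le_iff₀ (mul_pos p0 q0)]
    exact (hE.O _ _ hu hv).1
  · rw [CB_eq, ← mul_div_assoc, le_div_iff₀ (mul_pos p0 q0), one_mul]
    exact (hE.O _ _ hu hv).2

lemma CA_bd {x : R4} (hy : x ∈ TT U W u0 v0) {ρ : ℝ} (s2 : sd x ≤ ρ) :
    0 < CA S Ui Wi x ∧ CA S Ui Wi x ≤ K ^ 2 * 4 ∧ 1 ≤ K ^ 2 * ρ ^ 2 * CA S Ui Wi x := by
  obtain ⟨hu, hv⟩ := iq_mem hU hW hy
  obtain ⟨r1, r2⟩ : 1 ≤ K * S.r (iq Ui Wi x) ∧ S.r (iq Ui Wi x) ≤ K := hE.r _ _ hu hv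
  have r0 : 0 < S.r (iq Ui Wi x) := (h.at' _).pos
  have c0 := cf_pos x
  have c4 := cf_le x
  have s1 := one_le_sd x
  refine ⟨by unfold CA; positivity, by unfold CA; gcongr, ?_⟩
  have t1 : 1 ≤ (K * S.r (iq Ui Wi x)) ^ 2 := one_le_pow₀ r1
  have t2 : 1 ≤ ρ ^ 2 * cf x := by
    rw [cf_eq, ← mul_div_assoc, le_div_iff₀ (by positivity)]
    nlinarith
  calc 1 ≤ (K * S.r (iq Ui Wi x)) ^ 2 * (ρ ^ 2 * cf x) := one_le_mul_of_one_le_of_one_le t1 t2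
    _ = K ^ 2 * ρ ^ 2 * CA S Ui Wi x := by unfold CA; ring

lemma ang_bd {x a : R4} (hy : x ∈ TT U W u0 v0) (a1 : a.1 = 0) (a2 : a.2.1 = 0) (i : ℕ) :
    |CC S u0 v0 Ui Wi i x| ≤ 16 * K ^ 2 ∧
      |P354n.deriv (CC S u0 v0 Ui Wi i) x a| ≤ 16 * K ^ 2 * ‖a‖ := by
  obtain ⟨hu, hv⟩ := iq_mem hU hW hy
  have r2 : S.r (iq Ui Wi x) ≤ K := (hE.r _ _ hu hv).2
  have r0 : 0 < S.r (iq Ui Wi x) := (h.at' _).pos
  have c0 := cf_pos x
  have c4 := cf_le x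
  have K1 := hE.one
  have K2 : K ≤ K ^ 2 := by nlinarith
  obtain ⟨A0, A1, -⟩ := CA_bd h hU hW hE hy le_rfl
  obtain ⟨B0, B1, -⟩ := CB_bd hU hW hE hy
  rcases CC_cases S u0 v0 Ui Wi i with k | k | k <;> rw [k]
  · refine ⟨by rw [abs_of_pos A0]; linarith, ?_⟩
    rw [(ld_CA h hU hW hy a).deriv_eq, a1, a2]
    simp only [mul_zero, add_zero, zero_mul, zero_add]
    rw [abs_mul, abs_mul, abs_of_pos (by positivity), abs_of_pos (by positivity)]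
    calc S.r (iq Ui Wi x) ^ 2 * (2 * cf x * |sa x a|) ≤ K ^ 2 * (2 * 4 * (2 * ‖a‖)) := by
          gcongr; exact abs_sa x a
      _ = 16 * K ^ 2 * ‖a‖ := by ring
  · refine ⟨by rw [abs_of_pos B0]; linarith, ?_⟩
    rw [(ld_CB h hU hW hy a).deriv_eq, a1, a2]
    simp only [mul_zero, add_zero, abs_zero]
    positivity
  · rw [deriv_zero, abs_zero]
    exact ⟨by positivity, by positivity⟩

lemma null_bd {x : R4} (hy : x ∈ TT U W u0 v0) (i : ℕ) :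
    |P354n.deriv (CC S u0 v0 Ui Wi i) x dv| ≤ 8 * K * (kv (Wi x.2.1) / S.O (u0, Wi x.2.1)) ∧
    |P354n.deriv (CC S u0 v0 Ui Wi i) x du| ≤ 8 * K * (ku (Ui x.1) / S.O (Ui x.1, v0)) := by
  obtain ⟨hu, hv⟩ := iq_mem hU hW hy
  have r2 : S.r (iq Ui Wi x) ≤ K := (hE.r _ _ hu hv).2
  have r0 : 0 < S.r (iq Ui Wi x) := (h.at' _).pos
  have c0 := cf_pos x
  have c4 := cf_le x
  have K1 := hE.one
  have p0 := O_pos S (Ui x.1, v0)
  have q0 := O_pos S (u0, Wi x.2.1)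
  obtain ⟨B0, B1, -⟩ := CB_bd hU hW hE hy
  obtain ⟨l1, l2⟩ : |S.l (iq Ui Wi x)| ≤ kv (Wi x.2.1) ∧
    |S.wv (iq Ui Wi x) - S.wv (u0, Wi x.2.1)| ≤ kv (Wi x.2.1) := hE.bv _ _ hu hv
  obtain ⟨n1, n2⟩ : |S.n (iq Ui Wi x)| ≤ ku (Ui x.1) ∧
    |S.wu (iq Ui Wi x) - S.wu (Ui x.1, v0)| ≤ ku (Ui x.1) := hE.bu _ _ hu hv
  have l0 := (abs_nonneg _).trans l1
  have n0 := (abs_nonneg _).trans n1
  rcases CC_cases S u0 v0 Ui Wi i with k | k | k <;> rw [k]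
  · rw [(ld_CA h hU hW hy dv).deriv_eq, (ld_CA h hU hW hy du).deriv_eq]
    simp only [du, dv, sa, mul_zero, add_zero, zero_add, mul_one, abs_mul, abs_two,
      abs_of_pos r0, abs_of_pos c0, abs_of_pos (inv_pos.2 p0), abs_of_pos (inv_pos.2 q0)]
    constructor
    · calc _ ≤ 2 * K * (kv (Wi x.2.1) * (S.O (u0, Wi x.2.1))⁻¹) * 4 := by gcongr
        _ = _ := by ring
    · calc _ ≤ 2 * K * (ku (Ui x.1) * (S.O (Ui x.1, v0))⁻¹) * 4 := by gcongr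
        _ = _ := by ring
  · rw [(ld_CB h hU hW hy dv).deriv_eq, (ld_CB h hU hW hy du).deriv_eq]
    simp only [du, dv, mul_zero, add_zero, zero_add, mul_one, abs_mul,
      abs_of_pos B0, abs_of_pos (inv_pos.2 p0), abs_of_pos (inv_pos.2 q0)]
    constructor
    · calc _ ≤ 8 * K * kv (Wi x.2.1) * (S.O (u0, Wi x.2.1))⁻¹ := by gcongr; linarith
        _ = _ := by ring
    · calc _ ≤ 8 * K * ku (Ui x.1) * (S.O (Ui x.1, v0))⁻¹ := by gcongr; linarith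
        _ = _ := by ring
  · rw [deriv_zero, deriv_zero, abs_zero]
    exact ⟨by positivity, by positivity⟩

lemma box (σ : Bool) {D : Set R4} (hD : D ⊆ TT U W u0 v0) {ρ : ℝ}
    (hρ : ∀ x ∈ D, sd x ≤ ρ) {K' r : ℝ} {k n : ℝ → ℝ} (hK : 16 * K ^ 2 * ρ ^ 2 ≤ K')
    (hk : ∀ x ∈ D, 8 * K * (kv (Wi x.2.1) / S.O (u0, Wi x.2.1)) ≤ k x.2.1)
    (hn : ∀ x ∈ D, 8 * K * (ku (Ui x.1) / S.O (Ui x.1, v0)) ≤ n x.1)
    (hi : ∀ f, f = k ∨ f = n → Measurable f ∧ InLp 1 f (-r)) :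
    IsDNBox (sp S) (qc hU hW, σ) (CC S u0 v0 Ui Wi) D r K' k n := by
  refine ⟨hD, fun i => (CC_smooth h hU hW i).mono hD, fun x hx => ?_, hi⟩
  have hy := hD hx
  have K1 := hE.one
  have ρ1 : 1 ≤ ρ ^ 2 := one_le_pow₀ ((one_le_sd x).trans (hρ x hx))
  have K2 : K ≤ K ^ 2 := by nlinarith
  have K4 : K ^ 2 ≤ K ^ 2 * ρ ^ 2 := le_mul_of_one_le_right (sq_nonneg K) ρ1
  have K3 : 16 * K ^ 2 ≤ K' := by linarith
  have K0 : 0 ≤ K' := by linarith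
  obtain ⟨A0, -, A2⟩ := CA_bd h hU hW hE hy (hρ x hx)
  obtain ⟨B0, -, B2⟩ := CB_bd hU hW hE hy
  refine ⟨g_form hU hW σ hy, ?_, ?_, fun a a1 a2 => ⟨?_, fun i _ => ?_⟩, ?_, fun i _ => ?_⟩
  · exact (O_pos S (u0, Wi x.2.1)).trans_eq (XS_qc hU hW σ x).symm
  · rw [CC_3]
    exact B2.trans (mul_le_mul_of_nonneg_right (by linarith) B0.le)
  · rw [form_ang a1]
    have t1 := norm_sq_le a1 a2
    have t2 : 0 ≤ ip a a := (sq_nonneg _).trans t1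
    have t3 : 1 ≤ K' * CA S Ui Wi x :=
      A2.trans (mul_le_mul_of_nonneg_right (by linarith) A0.le)
    rw [← mul_assoc]
    exact t1.trans (le_mul_of_one_le_left t2 t3)
  · obtain ⟨t1, t2⟩ := ang_bd h hU hW hE hy a1 a2 i
    exact ⟨t1.trans K3, t2.trans (mul_le_mul_of_nonneg_right K3 (norm_nonneg a))⟩
  · rintro i (rfl | rfl)
    · rw [CC_4, show 4 + 2 = 6 from rfl, CC_6, deriv_zero, deriv_zero, sub_zero, abs_zero]
      exact K0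
    · rw [CC_5, show 5 + 2 = 7 from rfl, CC_7, deriv_zero, deriv_zero, sub_zero, abs_zero]
      exact K0
  · obtain ⟨t1, t2⟩ := null_bd h hU hW hE hy i
    exact ⟨t1.trans (hk x hx), t2.trans (hn x hx)⟩

end Vale.Agent.P354G
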