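import Vale.Agent.P354G.Eqs

/-!
The spacetime of a smooth solution of the reduced system solves the Einstein-Maxwell-scalar field
system, and induces the data.
-/

open scoped ContDiff
open MeasureTheory Set Filter Topology

namespace Vale.Agent.P354G

open Vale.Agent.P354E
open Vale.Agent.P354n (R4 Spc On tgt co inv IsConn Riem IsSmooth)

variable {e : ℝ} {S : Fld}

lemma ld_F0 (h : SS e S) (y a b c : R4) : LD (fun z => F0 e S z b c) y a
    (-(e * S.O (p2 y) / (2 * S.r (p2 y) ^ 2)) * (S.wu (p2 y) * a.1 + S.wv (p2 y) * a.2.1 -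
      2 * (S.n (p2 y) * a.1 + S.l (p2 y) * a.2.1) / S.r (p2 y)) * (b.1 * c.2.1 - b.2.1 * c.1)) := by
  have h1 := (h.at' (p2 y)).ne
  have := (((LD.const_mul e (h.ld_O y a)).div (LD.const_mul 2 (h.ld_r y a).sq)
    (by positivity)).neg).mul_const (b.1 * c.2.1 - b.2.1 * c.1)
  refine LD.congr_d this ?_
  field_simp

lemma dF (h : SS e S) (y a b c : R4) :
    lineDeriv ℝ (fun z => F0 e S z b c) y a + lineDeriv ℝ (fun z => F0 e S z c a) y b +
      lineDeriv ℝ (fun z => F0 e S z a b) y c = 0 := by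
  rw [(ld_F0 h y a b c).eq, (ld_F0 h y b c a).eq, (ld_F0 h y c a b).eq]
  ring

lemma psi_eq (h : SS e S) (y a : R4) : lineDeriv ℝ (fun z => S.p (p2 z)) y a =
    S.pu (p2 y) * a.1 + S.pv (p2 y) * a.2.1 := (h.ld_p y a).eq

lemma wave (h : SS e S) (y : R4) :
    ∑ i, (lineDeriv ℝ (fun z => lineDeriv ℝ (fun z => S.p (p2 z)) z (Ed S y i)) y (Eb i) -
      lineDeriv ℝ (fun z => S.p (p2 z)) y (Gam S y (Eb i) (Ed S y i))) = 0 := by
  have h1 := (h.at' (p2 y)).ne
  have h2 := O_ne S (p2 y)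
  have h3 := (cf_pos y).ne'
  have e1 : ∀ a b : R4, lineDeriv ℝ (fun z => S.pu (p2 z) * b.1 + S.pv (p2 z) * b.2.1) y a = _ :=
    fun a b => (((h.ld_pu y a).mul_const b.1).add ((h.ld_pv y a).mul_const b.2.1)).eq
  simp only [psi_eq h, e1, Fin.sum_univ_four, Eb, Ed, Matrix.cons_val_zero, Matrix.cons_val_one,
    Matrix.cons_val, Gam, ip, G2]
  field_simp
  ring

lemma maxwell (h : SS e S) (y c : R4) :
    ∑ i, (lineDeriv ℝ (fun z => F0 e S z (Ed S y i) c) y (Eb i) -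
      F0 e S y (Gam S y (Eb i) (Ed S y i)) c - F0 e S y (Ed S y i) (Gam S y (Eb i) c)) = 0 := by
  have h1 := (h.at' (p2 y)).ne
  have h2 := O_ne S (p2 y)
  have h3 := (cf_pos y).ne'
  simp only [fun a b c => (ld_F0 h y a b c).eq]
  simp only [Fin.sum_univ_four, Eb, Ed, Matrix.cons_val_zero, Matrix.cons_val_one,
    Matrix.cons_val, Gam, ip, F0]
  field_simp
  ring

lemma einstein (h : SS e S) (y b c : R4) :
    ∑ i, Riem (g0 S) (Gam S) y (Eb i) b c (Ed S y i) =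
      2 * (lineDeriv ℝ (fun z => S.p (p2 z)) y b * lineDeriv ℝ (fun z => S.p (p2 z)) y c) +
      2 * (∑ i, F0 e S y b (Eb i) * F0 e S y c (Ed S y i) -
        g0 S y b c / 4 * ∑ i, ∑ j, F0 e S y (Eb i) (Eb j) * F0 e S y (Ed S y i) (Ed S y j)) := by
  have h1 := (h.at' (p2 y)).ne
  have h2 := O_ne S (p2 y)
  have h3 := (cf_pos y).ne'
  rw [ricci h, psi_eq h, psi_eq h]
  simp only [Fin.sum_univ_four, Eb, Ed, Matrix.cons_val_zero, Matrix.cons_val_one,
    Matrix.cons_val, F0, g0]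
  field_simp
  ring

/-! ### General charts -/

lemma isOpen_tgt (S : Fld) (c : PC × Bool) : IsOpen (tgt (M := sp S) c) := (chart c).open_target

lemma bq_smooth (c : PC × Bool) : ContDiffOn ℝ ∞ (bq c) {y | p2 y ∈ c.1.ξ.target} :=
  c.1.sm'.comp p2_smooth.contDiffOn fun _ h => h

lemma bv_smooth (c : PC × Bool) (a : R4) :
    ContDiffOn ℝ ∞ (fun y => bv c y a) {y | p2 y ∈ c.1.ξ.target} := by
  have h1 : ContDiffOn ℝ ∞ (fderiv ℝ c.1.ξ.symm) c.1.ξ.target :=
    c.1.sm'.fderiv_of_isOpen c.1.ξ.open_target (by simp)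
  exact (h1.comp p2_smooth.contDiffOn fun _ h => h).clm_apply contDiffOn_const

lemma bv_add (c : PC × Bool) (y a b : R4) : bv c y (a + b) = bv c y a + bv c y b :=
  map_add (fderiv ℝ c.1.ξ.symm (p2 y)) (p2 a) (p2 b)

lemma bv_smul (c : PC × Bool) (y : R4) (t : ℝ) (a : R4) : bv c y (t • a) = t • bv c y a :=
  map_smul (fderiv ℝ c.1.ξ.symm (p2 y)) t (p2 a)

lemma sti_st_diff (σ σ' : Bool) (z : ℝ × ℝ) (h : st σ z ∈ src σ') :
    DifferentiableAt ℝ (fun z => sti σ' (st σ z)) z := by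
  have h0 : ∀ i : Fin 3, ContDiffAt ℝ ∞ (fun z => (st σ z).1 i) z := fun i =>
    (contDiff_euclidean.1 (stv_smooth σ) i).contDiffAt
  have h1 : ContDiffAt ℝ ∞ (fun z => 1 + sg σ' * (st σ z).1 2) z :=
    contDiffAt_const.add (contDiffAt_const.mul (h0 2))
  exact (((h0 0).div h1 h).prodMk ((h0 1).div h1 h)).differentiableAt (by simp)

lemma trans_bv (c c' : PC × Bool) {y : R4} (hy : y ∈ tgt (M := sp S) c)
    (hy' : On (M := sp S) c' (inv (M := sp S) c y)) (a : R4) :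
    bq c' (co (M := sp S) c' (inv (M := sp S) c y)) = bq c y ∧
    bv c' (co (M := sp S) c' (inv (M := sp S) c y))
      (lineDeriv ℝ (fun y => co (M := sp S) c' (inv (M := sp S) c y)) y a) = bv c y a := by
  have hy1 : p2 y ∈ c.1.ξ.target := hy
  have hq : bq c y ∈ c'.1.ξ.source := hy'.1
  refine ⟨c'.1.ξ.left_inv hq, ?_⟩
  set T : R4 → R4 := fun y => co (M := sp S) c' (inv (M := sp S) c y) with hT
  have d1 : DifferentiableAt ℝ c.1.ξ.symm (p2 y) :=
    (c.1.sm'.contDiffAt (c.1.ξ.open_target.mem_nhds hy1)).differentiableAt (by simp)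
  have d2 : DifferentiableAt ℝ (bq c) y := d1.comp y (p2_fderiv y).differentiableAt
  have d3 : DifferentiableAt ℝ c'.1.ξ (bq c y) :=
    (c'.1.sm.contDiffAt (c'.1.ξ.open_source.mem_nhds hq)).differentiableAt (by simp)
  have d4 : DifferentiableAt ℝ (fun y => c'.1.ξ (bq c y)) y := d3.comp y d2
  have d5 : DifferentiableAt ℝ (fun y : R4 => sti c'.2 (st c.2 y.2.2)) y :=
    (sti_st_diff c.2 c'.2 y.2.2 hy'.2).comp y (f := fun y : R4 => y.2.2) (by fun_prop)
  have d6 : DifferentiableAt ℝ T y := d4.fst.prodMk (d4.snd.prodMk d5)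
  have d7 : DifferentiableAt ℝ c'.1.ξ.symm (p2 (T y)) :=
    (c'.1.sm'.contDiffAt (c'.1.ξ.open_target.mem_nhds (c'.1.ξ.map_source hq))).differentiableAt
      (by simp)
  have d8 := d7.hasFDerivAt.comp y ((p2_fderiv (T y)).comp y d6.hasFDerivAt)
  have d9 := d1.hasFDerivAt.comp y (p2_fderiv y)
  have ev : (c.1.ξ.symm ∘ p2) =ᶠ[𝓝 y] (c'.1.ξ.symm ∘ p2 ∘ T) := by
    have : ∀ᶠ z in 𝓝 y, bq c z ∈ c'.1.ξ.source :=
      d2.continuousAt.eventually (c'.1.ξ.open_source.mem_nhds hq)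
    filter_upwards [this] with z hz
    exact (c'.1.ξ.left_inv hz).symm
  have := (d8.congr_of_eventuallyEq ev).unique d9
  rw [d6.lineDeriv_eq_fderiv]
  exact congrArg (fun L : R4 →L[ℝ] P2 => L a) this

theorem isEMS (h : SS e S) : IsEMS (sp S) (phi S) (FF e S) where
  smooth c := by
    have hq := bq_smooth c
    have hc : ∀ f : P2 → ℝ, ContDiffOn ℝ ∞ f univ →
        ContDiffOn ℝ ∞ (fun y => f (bq c y)) {y | p2 y ∈ c.1.ξ.target} := fun f hf =>
      (contDiffOn_univ.1 hf).comp_contDiffOn hq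
    refine ⟨hc _ h.sm.p, fun a b => ?_⟩
    have h1 := bv_smooth c a
    have h2 := bv_smooth c b
    refine ContDiffOn.mul (ContDiffOn.neg (ContDiffOn.div (contDiffOn_const.mul (hc _ h.O_sm))
      (contDiffOn_const.mul ((hc _ h.sm.r).pow 2)) fun y _ => ?_))
      ((h1.fst.mul h2.snd).sub (h1.snd.mul h2.fst))
    have := (h.at' (bq c y)).ne
    positivity
  form c y _ a := by
    refine ⟨⟨fun b b' => ?_, fun t b => ?_⟩, fun b => ?_⟩
    · simp only [FF]
      rw [bv_add c y b b']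
      simp only [Prod.fst_add, Prod.snd_add]; ring
    · simp only [FF]
      rw [bv_smul c y t b]
      simp only [Prod.smul_fst, Prod.smul_snd, smul_eq_mul]; ring
    · simp only [FF]; ring
  tensor c c' T hT y hy hy' a b := by
    subst hT
    simp only [FF]
    rw [(trans_bv c c' hy hy' a).1, (trans_bv c c' hy hy' a).2, (trans_bv c c' hy hy' b).2]
  eqs x := by
    obtain ⟨σ, hσ⟩ := src_cover x.2
    refine ⟨(PC.id, σ), ⟨mem_univ _, hσ⟩, Gam S, fun z => S.p (p2 z), rfl, fun y _ => ?_⟩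
    rw [g0_eq, F0_eq]
    exact ⟨isConn h y, dF h y, Eb, Ed S y, dual h y, wave h y, maxwell h y, einstein h y⟩

end Vale.Agent.P354G
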