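import Vale.Agent.P354G.Quad
import Vale.Agent.P354G.EMS

/-!
The chart of a quadrant in which the Cauchy horizons are at finite coordinate values.
-/

open scoped ContDiff
open MeasureTheory Set Filter Topology

namespace Vale.Agent.P354G

open Vale.Agent.P354E
open Vale.Agent.P354n (R4 Spc On tgt co inv)

/-- W is the primitive of p which vanishes at infinity, Wi is its inverse -/
structure Co (p : ℝ → ℝ) (a : ℝ) (W Wi : ℝ → ℝ) : Prop where
  pos : ∀ x, 0 < p x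
  psm : ContDiff ℝ ∞ p
  sm : ContDiff ℝ ∞ W
  der : ∀ x, HasDerivAt W (p x) x
  neg : ∀ x, W x < 0
  lim : Tendsto W atTop (𝓝 0)
  left : ∀ x, Wi (W x) = x
  right : ∀ s ∈ Ioo (W a) 0, W (Wi s) = s
  smi : ContDiffOn ℝ ∞ Wi (Ioo (W a) 0)

lemma exists_co {p : ℝ → ℝ} {a : ℝ} (hp : ContDiff ℝ ∞ p) (h0 : ∀ x, 0 < p x)
    (hi : IntegrableOn p (Ici a)) : ∃ W Wi, Co p a W Wi := by
  have hi' : IntegrableOn p (Ioi a) := hi.mono_set Ioi_subset_Ici_self
  obtain ⟨W, hW⟩ : ∃ W : ℝ → ℝ, W = fun x => (∫ s in a..x, p s) - ∫ s in Ioi a, p s := ⟨_, rfl⟩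
  have hs : ∀ x, HasStrictDerivAt W (p x) x := fun x =>
    hW ▸ (hp.continuous.integral_hasStrictDerivAt a x).sub_const _
  have hd : ∀ x, HasDerivAt W (p x) x := fun x => (hs x).hasDerivAt
  have hsm : ContDiff ℝ ∞ W := by
    rw [contDiff_infty_iff_deriv]
    refine ⟨fun x => (hd x).differentiableAt, ?_⟩
    rw [show deriv W = p from funext fun x => (hd x).deriv]
    exact hp
  have hm : StrictMono W := strictMono_of_deriv_pos fun x => by rw [(hd x).deriv]; exact h0 x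
  have hl : Tendsto W atTop (𝓝 0) := by
    have := (intervalIntegral_tendsto_integral_Ioi a hi' tendsto_id).sub_const (∫ s in Ioi a, p s)
    rw [sub_self] at this
    exact hW ▸ this
  have hn : ∀ x, W x < 0 := fun x =>
    (hm (lt_add_one x)).trans_le (hm.monotone.ge_of_tendsto hl _)
  have hO : IsOpenEmbedding W := .of_continuous_injective_isOpenMap hsm.continuous hm.injective
    (isOpenMap_of_hasStrictDerivAt hs fun x => (h0 x).ne')
  have hr : ∀ s ∈ Ioo (W a) 0, s ∈ range W := by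
    intro s hs
    obtain ⟨b, hb⟩ := (hl.eventually (lt_mem_nhds hs.2)).exists
    exact intermediate_value_univ a b hsm.continuous ⟨hs.1.le, hb.le⟩
  refine ⟨W, (hO.toOpenPartialHomeomorph W).symm, h0, hp, hsm, hd, hn, hl,
    fun x => (hO.toOpenPartialHomeomorph W).left_inv (mem_univ x), fun s hs => ?_, fun s hs => ?_⟩
  · exact (hO.toOpenPartialHomeomorph W).right_inv (by simpa using hr s hs)
  · refine ContDiffAt.contDiffWithinAt ?_
    exact (hO.toOpenPartialHomeomorph W).contDiffAt_symm_deriv (h0 _).ne' (by simpa using hr s hs)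
      (hd _) hsm.contDiffAt

namespace Co

variable {p W Wi : ℝ → ℝ} {a : ℝ}

lemma mono (h : Co p a W Wi) : StrictMono W :=
  strictMono_of_deriv_pos fun x => by rw [(h.der x).deriv]; exact h.pos x

lemma mem (h : Co p a W Wi) {x : ℝ} (hx : a < x) : W x ∈ Ioo (W a) 0 := ⟨h.mono hx, h.neg x⟩

lemma lt (h : Co p a W Wi) {b s : ℝ} (hb : a ≤ b) (hs : s ∈ Ioo (W b) 0) : b < Wi s := by
  rw [← h.mono.lt_iff_lt, h.right s ⟨(h.mono.monotone hb).trans_lt hs.1, hs.2⟩]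
  exact hs.1

lemma smAt (h : Co p a W Wi) {s : ℝ} (hs : s ∈ Ioo (W a) 0) : ContDiffAt ℝ ∞ Wi s :=
  h.smi.contDiffAt (Ioo_mem_nhds hs.1 hs.2)

lemma deri (h : Co p a W Wi) {s : ℝ} (hs : s ∈ Ioo (W a) 0) : HasDerivAt Wi (p (Wi s))⁻¹ s :=
  HasDerivAt.of_local_left_inverse (h.smAt hs).continuousAt (h.der _) (h.pos _).ne'
    (eventually_of_mem (Ioo_mem_nhds hs.1 hs.2) h.right)

lemma image (h : Co p a W Wi) {b : ℝ} (hb : a ≤ b) : W '' Ioi b = Ioo (W b) 0 := by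
  ext s
  constructor
  · rintro ⟨x, hx, rfl⟩
    exact ⟨h.mono hx, h.neg x⟩
  · intro hs
    exact ⟨Wi s, h.lt hb hs, h.right s ⟨(h.mono.monotone hb).trans_lt hs.1, hs.2⟩⟩

lemma integrableOn_iff (h : Co p a W Wi) {b : ℝ} (hb : a ≤ b) (g : ℝ → ℝ) :
    IntegrableOn g (Ioo (W b) 0) ↔ IntegrableOn (fun x => p x * g (W x)) (Ioi b) := by
  rw [← h.image hb, integrableOn_image_iff_integrableOn_abs_deriv_smul measurableSet_Ioi
    (fun x _ => (h.der x).hasDerivWithinAt) h.mono.injective.injOn]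
  simp only [abs_of_pos (h.pos _), smul_eq_mul]

lemma tendsto_top (h : Co p a W Wi) {l : Filter ℝ} {v : ℝ → ℝ}
    (hv : Tendsto (fun t => W (v t)) l (𝓝 0)) : Tendsto v l atTop := by
  refine tendsto_atTop.2 fun b => ?_
  filter_upwards [hv.eventually (lt_mem_nhds (h.neg b))] with t ht
  exact (h.mono.lt_iff_lt.1 ht).le

lemma tendsto_fin (h : Co p a W Wi) {l : Filter ℝ} {v : ℝ → ℝ} {s : ℝ} (hs : s ∈ Ioo (W a) 0)
    (hv : Tendsto (fun t => W (v t)) l (𝓝 s)) : Tendsto v l (𝓝 (Wi s)) := by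
  have := ((h.smAt hs).continuousAt.tendsto).comp hv
  exact this.congr fun t => h.left _

/-- a bound k(x) dx which is integrable, in terms of the coordinate W -/
lemma bound (h : Co p a W Wi) {k : ℝ → ℝ} (hc : ContinuousOn k (Ici a))
    (hi : IntegrableOn k (Ici a)) (h0 : ∀ x, a ≤ x → 0 ≤ k x) :
    ∃ κ : ℝ → ℝ, Measurable κ ∧ Integrable κ ∧ (∀ s, 0 ≤ κ s) ∧ ContinuousOn κ (Ioo (W a) 0) ∧
      ∀ s ∈ Ioo (W a) 0, κ s = k (Wi s) / p (Wi s) := by
  classical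
  have c1 : ContinuousOn (fun s => k (Wi s) / p (Wi s)) (Ioo (W a) 0) :=
    (hc.comp h.smi.continuousOn fun s hs => (h.lt le_rfl hs).le).div
      (h.psm.continuous.comp_continuousOn h.smi.continuousOn) fun s _ => (h.pos _).ne'
  refine ⟨(Ioo (W a) 0).piecewise (fun s => k (Wi s) / p (Wi s)) fun _ => 0,
    c1.measurable_piecewise continuousOn_const measurableSet_Ioo, ?_, fun s => ?_,
    c1.congr fun s hs => piecewise_eq_of_mem _ _ _ hs, fun s hs => piecewise_eq_of_mem _ _ _ hs⟩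
  · refine Integrable.piecewise measurableSet_Ioo ?_ (integrable_zero _ _ _)
    refine (h.integrableOn_iff le_rfl _).2 ((hi.mono_set Ioi_subset_Ici_self).congr_fun
      (fun x _ => ?_) measurableSet_Ioi)
    have := (h.pos x).ne'
    simp only [h.left]
    field_simp
  · by_cases hs : s ∈ Ioo (W a) 0
    · rw [piecewise_eq_of_mem _ _ _ hs]
      exact div_nonneg (h0 _ (h.lt le_rfl hs).le) (h.pos _).le
    · rw [piecewise_eq_of_notMem _ _ _ hs]

end Co

section Chart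

variable {p q U Ui W Wi : ℝ → ℝ} {u0 v0 : ℝ}

/-- the chart of the quadrant -/
def qc (hU : Co p u0 U Ui) (hW : Co q v0 W Wi) : PC where
  ξ :=
    { toFun := fun x => (U x.1, W x.2)
      invFun := fun y => (Ui y.1, Wi y.2)
      source := Ioi u0 ×ˢ Ioi v0
      target := Ioo (U u0) 0 ×ˢ Ioo (W v0) 0
      map_source' := fun _ h => ⟨hU.mem h.1, hW.mem h.2⟩
      map_target' := fun _ h => ⟨hU.lt le_rfl h.1, hW.lt le_rfl h.2⟩
      left_inv' := fun _ _ => Prod.ext (hU.left _) (hW.left _)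
      right_inv' := fun _ h => Prod.ext (hU.right _ h.1) (hW.right _ h.2)
      open_source := isOpen_Ioi.prod isOpen_Ioi
      open_target := isOpen_Ioo.prod isOpen_Ioo
      continuousOn_toFun := ((hU.sm.continuous.comp continuous_fst).prodMk
        (hW.sm.continuous.comp continuous_snd)).continuousOn
      continuousOn_invFun := (hU.smi.continuousOn.comp continuousOn_fst fun _ h => h.1).prodMk
        (hW.smi.continuousOn.comp continuousOn_snd fun _ h => h.2) }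
  sm := ((hU.sm.comp contDiff_fst).prodMk (hW.sm.comp contDiff_snd)).contDiffOn
  sm' := (hU.smi.comp contDiffOn_fst fun _ h => h.1).prodMk
    (hW.smi.comp contDiffOn_snd fun _ h => h.2)

/-- the point of the plane with coordinates y -/
def iq (Ui Wi : ℝ → ℝ) (y : R4) : P2 := (Ui y.1, Wi y.2.1)

/-- the image of the chart -/
def TT (U W : ℝ → ℝ) (u0 v0 : ℝ) : Set R4 := {y | y.1 ∈ Ioo (U u0) 0 ∧ y.2.1 ∈ Ioo (W v0) 0}

lemma isOpen_TT (U W : ℝ → ℝ) (u0 v0 : ℝ) : IsOpen (TT U W u0 v0) :=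
  (isOpen_Ioo.preimage continuous_fst).inter (isOpen_Ioo.preimage (by fun_prop))

variable (hU : Co p u0 U Ui) (hW : Co q v0 W Wi)

lemma tgt_qc (S : Fld) (σ : Bool) : tgt (M := sp S) (qc hU hW, σ) = TT U W u0 v0 := rfl

lemma bq_qc (σ : Bool) : bq (qc hU hW, σ) = iq Ui Wi := rfl

lemma co_qc (S : Fld) (σ : Bool) (x : P2 × S2) :
    co (M := sp S) (qc hU hW, σ) x = (U x.1.1, W x.1.2, sti σ x.2) := rfl

lemma on_qc (S : Fld) (σ : Bool) (x : P2 × S2) :
    On (M := sp S) (qc hU hW, σ) x ↔ (u0 < x.1.1 ∧ v0 < x.1.2) ∧ x.2 ∈ src σ := Iff.rfl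

lemma fderiv_pair {f g : ℝ → ℝ} {f' g' : ℝ} {x : P2} (hf : HasDerivAt f f' x.1)
    (hg : HasDerivAt g g' x.2) (a : P2) :
    fderiv ℝ (fun y : P2 => ((f y.1, g y.2) : P2)) x a = (f' * a.1, g' * a.2) := by
  have h1 := (hf.comp_hasFDerivAt x (hasFDerivAt_fst (𝕜 := ℝ) (p := x))).prodMk
    (hg.comp_hasFDerivAt x (hasFDerivAt_snd (𝕜 := ℝ) (p := x)))
  exact congrArg (fun L : P2 →L[ℝ] P2 => L a) h1.fderiv

lemma bv_qc (σ : Bool) {y : R4} (hy : y ∈ TT U W u0 v0) (a : R4) :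
    bv (qc hU hW, σ) y a = ((p (Ui y.1))⁻¹ * a.1, (q (Wi y.2.1))⁻¹ * a.2.1) :=
  fderiv_pair (x := p2 y) (hU.deri hy.1) (hW.deri hy.2) (p2 a)

lemma XS_qc (σ : Bool) (y : R4) : (XS (qc hU hW, σ) y).2.1 = q (Wi y.2.1) := by
  have := fderiv_pair (x := iq Ui Wi y) (hU.der _) (hW.der _) (1, 1)
  refine (congrArg Prod.snd this).trans ?_
  simp only [mul_one]
  rfl

include hU hW in
lemma iq_mem {y : R4} (hy : y ∈ TT U W u0 v0) : u0 ≤ Ui y.1 ∧ v0 ≤ Wi y.2.1 :=
  ⟨(hU.lt le_rfl hy.1).le, (hW.lt le_rfl hy.2).le⟩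

include hU hW in
lemma iq_smooth : ContDiffOn ℝ ∞ (iq Ui Wi) (TT U W u0 v0) := bq_smooth (qc hU hW, true)

include hU hW in
lemma ld_iq {f : P2 → ℝ} {y : R4} {fu fv : ℝ} (hy : y ∈ TT U W u0 v0)
    (h : DifferentiableAt ℝ f (iq Ui Wi y)) (hu : Du f (iq Ui Wi y) fu)
    (hv : Dv f (iq Ui Wi y) fv) (a : R4) : LD (fun z => f (iq Ui Wi z)) y a
      (fu * ((p (Ui y.1))⁻¹ * a.1) + fv * ((q (Wi y.2.1))⁻¹ * a.2.1)) := by
  have d1 : DifferentiableAt ℝ (qc hU hW).ξ.symm (p2 y) :=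
    ((qc hU hW).sm'.contDiffAt ((qc hU hW).ξ.open_target.mem_nhds hy)).differentiableAt (by simp)
  have d2 : HasFDerivAt (iq Ui Wi) _ y := d1.hasFDerivAt.comp y (p2_fderiv y)
  refine LD.congr_d (LD.of_fderiv (h.hasFDerivAt.comp y d2) a) ?_
  refine (fderiv_p2 h hu hv (bv (qc hU hW, true) y a)).trans ?_
  rw [bv_qc hU hW true hy]

end Chart

end Vale.Agent.P354G
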