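import Vale.Agent.P354G.Sing
import Vale.Agent.P354F.Cauchy
import Vale.Agent.P354F.Trans
import Vale.Agent.P354F.GIface

/-!
Curves which end at the Cauchy horizons or at their bifurcation sphere.
-/

open scoped ContDiff
open MeasureTheory Set Filter Topology

namespace Vale.Agent.P354G

open Vale.Agent.P354E Vale.Agent.P354F
open Vale.Agent.P354n (R4 Spc On tgt co inv IsDNBox InLp nullBox cornerBox IsFutureCurve EndsAt
  EndsAtFront EndsAtCorner)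

lemma inLp_of_integrable {f : ℝ → ℝ} (h : Integrable f) (b : ℝ) : InLp 1 f b :=
  (memLp_one_iff_integrable.2 h.integrableOn).eLpNorm_lt_top

lemma inLp_const (p : ENNReal) (c b : ℝ) : InLp p (fun _ => c) b :=
  (memLp_const c).eLpNorm_lt_top

lemma sd_bdd (z : R4) (r : ℝ) : ∃ ρ, ∀ x : R4, ‖x - z‖ < r → sd x ≤ ρ := by
  have hc : Continuous sd := by unfold sd; fun_prop
  obtain ⟨ρ, hρ⟩ := (isCompact_closedBall z r).exists_bound_of_continuousOn hc.continuousOn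
  exact ⟨ρ, fun x hx => (le_abs_self _).trans (hρ x (mem_closedBall_iff_norm.2 hx.le))⟩

variable {e : ℝ} {S : Fld} {u0 v0 K V : ℝ} {ku kv U Ui W Wi : ℝ → ℝ}

/-- a future curve which ends in the closure of the quadrant converges in a chart -/
lemma conv (hU : Co (fun u => S.O (u, v0)) u0 U Ui)
    (hW : Co (fun v => S.O (u0, v)) v0 W Wi) (hE : QE e S u0 v0 K ku kv)
    {a : ℝ → P2 × S2} (ha : IsFutureCurve (sp S) 0 (Ico 0 1) a)
    (h1 : ∀ᶠ t in 𝓝[<] 1, u0 < (a t).1.1) (h2 : ∀ᶠ t in 𝓝[<] 1, v0 < (a t).1.2) {z1 z2 : ℝ}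
    (h3 : Tendsto (fun t => U (a t).1.1) (𝓝[<] 1) (𝓝 z1))
    (h4 : Tendsto (fun t => W (a t).1.2) (𝓝[<] 1) (𝓝 z2)) :
    ∃ (σ : Bool) (θ : ℝ × ℝ), (∀ᶠ t in 𝓝[<] 1, On (M := sp S) (qc hU hW, σ) (a t)) ∧
      Tendsto (fun t => co (M := sp S) (qc hU hW, σ) (a t)) (𝓝[<] 1) (𝓝 (z1, z2, θ)) := by
  have hc := cur_of_curve (uniqueDiffOn_Ico 0 1) Ioo_subset_Ico_self ha
  obtain ⟨t0, k0, k1, k2⟩ := ev_Ioo (h1.and h2)
  obtain ⟨a', ha'⟩ : ∃ a', a' = deriv fun s => emb (a s) := ⟨_, rfl⟩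
  rw [← ha'] at hc
  have K1 := hE.one
  obtain ⟨w, hw⟩ := conv_of_dom (W := fun t => (emb (a t)).2.2) (W' := fun t => (a' t).2.2)
    (f := fun t => K ^ 2 * (U (a t).1.1 + W (a t).1.2))
    (f' := fun t => K ^ 2 * (S.O ((a t).1.1, v0) * (a' t).1 + S.O (u0, (a t).1.2) * (a' t).2.1))
    k1 (fun t ht => by
      have ht' : t ∈ Ioo (0 : ℝ) 1 := ⟨k0.trans_lt ht.1, ht.2⟩
      refine ⟨hc.dw ht', (((hU.der _).comp t (hc.du ht')).add
        ((hW.der _).comp t (hc.dv ht'))).const_mul _, ?_⟩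
      obtain ⟨t1, t2, t3⟩ := hc.tl t ht'
      obtain ⟨hu, hv⟩ := k2 t ht
      have t4 : -(S.O ((a t).1.1, (a t).1.2) * (a' t).1 * (a' t).2.1) +
        S.r ((a t).1.1, (a t).1.2) ^ 2 * ‖(a' t).2.2‖ ^ 2 < 0 := t1
      have r1 := (hE.r _ _ hu.le hv.le).1
      have o1 := (hE.O _ _ hu.le hv.le).1
      have p0 := mul_pos (O_pos S ((a t).1.1, v0)) t2
      have q0 := mul_pos (O_pos S (u0, (a t).1.2)) t3
      refine le_of_sq_le_sq ?_ (by positivity)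
      have t5 : S.O ((a t).1.1, (a t).1.2) * (a' t).1 * (a' t).2.1 ≤
          K * (S.O ((a t).1.1, v0) * S.O (u0, (a t).1.2)) * (a' t).1 * (a' t).2.1 := by gcongr
      generalize S.O ((a t).1.1, v0) = P at *
      generalize S.O (u0, (a t).1.2) = Q at *
      calc ‖(a' t).2.2‖ ^ 2 ≤ (K * S.r ((a t).1.1, (a t).1.2)) ^ 2 * ‖(a' t).2.2‖ ^ 2 :=
            le_mul_of_one_le_left (sq_nonneg _) (one_le_pow₀ r1)
        _ = K ^ 2 * (S.r ((a t).1.1, (a t).1.2) ^ 2 * ‖(a' t).2.2‖ ^ 2) := by ring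
        _ ≤ K ^ 2 * (K * ((P * (a' t).1) * (Q * (a' t).2.1))) :=
            mul_le_mul_of_nonneg_left (by linarith) (sq_nonneg K)
        _ ≤ K ^ 2 * (K ^ 2 * (P * (a' t).1 + Q * (a' t).2.1) ^ 2) := by
            gcongr <;> nlinarith [mul_pos p0 q0]
        _ = _ := by ring) ((h3.add h4).const_mul _)
  have hn : w ∈ Metric.sphere (0 : EuclideanSpace ℝ (Fin 3)) 1 :=
    Metric.isClosed_sphere.mem_of_tendsto hw (Eventually.of_forall fun t => (a t).2.2)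
  have hω : Tendsto (fun t => (a t).2) (𝓝[<] 1) (𝓝 (⟨w, hn⟩ : S2)) := tendsto_subtype_rng.2 hw
  obtain ⟨σ, hσ⟩ := src_cover ⟨w, hn⟩
  have ho := (isOpen_src σ).mem_nhds hσ
  refine ⟨σ, sti σ ⟨w, hn⟩, ?_, ?_⟩
  · filter_upwards [h1, h2, hω.eventually ho] with t t1 t2 t3 using ⟨⟨t1, t2⟩, t3⟩
  · exact h3.prodMk_nhds (h4.prodMk_nhds (((sti_cont σ).continuousAt ho).tendsto.comp hω))

lemma ball_ev {f : ℝ → R4} {z : R4} {r : ℝ} (hr : 0 < r) (h : Tendsto f (𝓝[<] 1) (𝓝 z)) :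
    ∀ᶠ t in 𝓝[<] 1, ‖f t - z‖ < r := by
  filter_upwards [h.eventually (Metric.ball_mem_nhds z hr)] with t ht
  rwa [← dist_eq_norm]

lemma coords (h : SS e S) (hE : QE e S u0 v0 K ku kv) :
    (∃ U Ui, Co (fun u => S.O (u, v0)) u0 U Ui) ∧ ∃ W Wi, Co (fun v => S.O (u0, v)) v0 W Wi :=
  ⟨exists_co ((contDiffOn_univ.1 h.O_sm).comp (by fun_prop)) (fun _ => O_pos _ _) hE.iu,
    exists_co ((contDiffOn_univ.1 h.O_sm).comp (by fun_prop)) (fun _ => O_pos _ _) hE.iv⟩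

/-- **Curves which end at the Cauchy horizon.** -/
theorem gFront : GFront := by
  rintro e S V uH hs hm ⟨c, hc, hr⟩ hR hB a ha u1 hu1 hu hv
  have h : SS e S := ⟨hs, hm⟩
  obtain ⟨u0, k1, k2⟩ := exists_between (lt_min hu1 hR.1)
  obtain ⟨k2, k3⟩ := lt_min_iff.1 k2
  obtain ⟨v0, hq⟩ := hR.2.2 u0 k1
  obtain ⟨K, ku, kv, hE⟩ := exists_QE hs hc hr hq
  obtain ⟨⟨U, Ui, hU⟩, W, Wi, hW⟩ := coords h hE
  obtain ⟨σ, θ, e1, e2⟩ := conv hU hW hE ha (hu.eventually (lt_mem_nhds k2))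
    (hv.eventually (eventually_gt_atTop v0)) ((hU.sm.continuous.tendsto u1).comp hu)
    (hW.lim.comp hv)
  obtain ⟨m1, m2⟩ := hU.mem k2
  have m3 := hW.neg v0
  obtain ⟨r, r0, r1, r2, r3⟩ : ∃ r > 0, r < U u1 - U u0 ∧ r < -U u1 ∧ r < -W v0 := by
    obtain ⟨r, t1, t2⟩ := exists_between (lt_min (sub_pos.2 m1) (lt_min (neg_pos.2 m2) (neg_pos.2 m3)))
    simp only [lt_min_iff] at t2
    exact ⟨r, t1, t2⟩
  have hI : Icc (U u1 - r) (U u1 + r) ⊆ Ioo (U u0) 0 := fun s hs =>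
    ⟨by linarith [hs.1], by linarith [hs.2]⟩
  have hD : ∀ x ∈ nullBox (U u1, 0, θ) r,
      x.1 ∈ Icc (U u1 - r) (U u1 + r) ∧ x.2.1 ∈ Ioo (W v0) 0 := by
    intro x hx
    have w1 := abs_lt.1 ((abs_1 _).trans_lt hx.1)
    have w2 := abs_lt.1 ((abs_2 _).trans_lt hx.1)
    simp only [Prod.fst_sub, Prod.snd_sub, sub_zero] at w1 w2
    exact ⟨⟨by linarith [w1.1], by linarith [w1.2]⟩, by linarith [w2.1], hx.2⟩
  have hT : nullBox (U u1, 0, θ) r ⊆ TT U W u0 v0 := fun x hx => ⟨hI (hD x hx).1, (hD x hx).2⟩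
  obtain ⟨ρ, hρ⟩ := sd_bdd (U u1, 0, θ) r
  obtain ⟨κ, a1, a2, -, -, a5⟩ := hW.bound hE.ckv hE.ikv
    fun v hv => (abs_nonneg _).trans (hE.bv u0 v le_rfl hv).1
  obtain ⟨κ', -, -, -, b4, b5⟩ := hU.bound hE.cku hE.iku
    fun u hu => (abs_nonneg _).trans (hE.bu u v0 hu le_rfl).1
  obtain ⟨B, hB'⟩ := isCompact_Icc.exists_bound_of_continuousOn (b4.mono hI)
  have K1 := hE.one
  refine ⟨(qc hU hW, σ), CC S u0 v0 Ui Wi, (U u1, 0, θ), r, max (16 * K ^ 2 * ρ ^ 2) (8 * K * B),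
    fun s => 8 * K * κ s, fun _ => 2 * K ^ 2, ?_, rfl, ⟨?_, e2⟩, measurable_const,
    inLp_const _ _ _, fun x hx => ⟨rfl, rfl, fun c hc => Or.inl ?_⟩⟩
  · refine box h hU hW hE σ hT (fun x hx => hρ x hx.1) (le_max_left _ _) (fun x hx => ?_)
      (fun x hx => ?_) ?_
    · rw [a5 _ (hD x hx).2]
    · rw [← b5 _ (hI (hD x hx).1)]
      refine le_trans ?_ (le_max_right _ _)
      gcongr
      exact (le_abs_self _).trans (hB' _ (hD x hx).1)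
    · rintro f (rfl | rfl)
      · exact ⟨a1.const_mul _, inLp_of_integrable (a2.const_mul _) _⟩
      · exact ⟨measurable_const, inLp_const _ _ _⟩
  · filter_upwards [e1, ball_ev r0 e2] with t t1 t2 using ⟨t1, t2, hW.neg _⟩
  · exact sing h hU hW hE k3.le hB (hT hx) hc

/-- **Curves which end at the bifurcation sphere.** -/
theorem gCorner : GCorner := by
  rintro e S hs hm ⟨⟨c, hc, hr⟩, V, uH, vH, hR, hR', hB, hB'⟩ a ha hu hv
  have h : SS e S := ⟨hs, hm⟩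
  obtain ⟨v0, hq⟩ := hR.2.2 V hR.1
  obtain ⟨K, ku, kv, hE⟩ := exists_QE hs hc hr hq
  obtain ⟨⟨U, Ui, hU⟩, W, Wi, hW⟩ := coords h hE
  obtain ⟨σ, θ, e1, e2⟩ := conv hU hW hE ha (hu.eventually (eventually_gt_atTop V))
    (hv.eventually (eventually_gt_atTop v0)) (hU.lim.comp hu) (hW.lim.comp hv)
  have m1 := hU.neg V
  have m2 := hW.neg (max v0 vH)
  have m3 : W v0 ≤ W (max v0 vH) := hW.mono.monotone (le_max_left _ _)
  obtain ⟨r, r0, r1, r2⟩ : ∃ r > 0, r < -U V ∧ r < -W (max v0 vH) := by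
    obtain ⟨r, t1, t2⟩ := exists_between (lt_min (neg_pos.2 m1) (neg_pos.2 m2))
    exact ⟨r, t1, lt_min_iff.1 t2⟩
  have hb : ∀ x : R4, ‖x - (0, 0, θ)‖ < r → U V < x.1 ∧ W (max v0 vH) < x.2.1 := by
    intro x hx
    have w1 := abs_lt.1 ((abs_1 _).trans_lt hx)
    have w2 := abs_lt.1 ((abs_2 _).trans_lt hx)
    simp only [Prod.fst_sub, Prod.snd_sub, sub_zero] at w1 w2
    exact ⟨by linarith [w1.1], by linarith [w2.1]⟩
  have hT : cornerBox (0, 0, θ) r ⊆ TT U W V v0 := fun x hx =>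
    ⟨⟨(hb x hx.1.1).1, hx.2⟩, m3.trans_lt (hb x hx.1.1).2, hx.1.2⟩
  obtain ⟨ρ, hρ⟩ := sd_bdd (0, 0, θ) r
  obtain ⟨κ, a1, a2, a3, -, a5⟩ := hW.bound hE.ckv hE.ikv
    fun v hv => (abs_nonneg _).trans (hE.bv V v le_rfl hv).1
  obtain ⟨κ', b1, b2, b3, -, b5⟩ := hU.bound hE.cku hE.iku
    fun u hu => (abs_nonneg _).trans (hE.bu u v0 hu le_rfl).1
  have K1 := hE.one
  refine ⟨(qc hU hW, σ), CC S V v0 Ui Wi, (0, 0, θ), r, 16 * K ^ 2 * ρ ^ 2,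
    fun s => 8 * K * (κ s + κ' s), ?_, rfl, rfl, ⟨?_, e2⟩, fun b hb' y hy y1 y2 y3 => ?_⟩
  · refine box h hU hW hE σ hT (fun x hx => hρ x hx.1.1) le_rfl (fun x hx => ?_)
      (fun x hx => ?_) ?_
    · rw [← a5 _ (hT hx).2]
      gcongr
      exact le_add_of_nonneg_right (b3 _)
    · rw [← b5 _ (hT hx).1]
      gcongr
      exact le_add_of_nonneg_left (a3 _)
    · rintro f (rfl | rfl) <;>
        exact ⟨(a1.add b1).const_mul _, inLp_of_integrable ((a2.add b2).const_mul _) _⟩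
  · filter_upwards [e1, ball_ev r0 e2] with t t1 t2 using ⟨t1, ⟨t2, hW.neg _⟩, hU.neg _⟩
  · have l1 : Tendsto (fun t => U (b t).1.1) (𝓝[<] 1) (𝓝 y.1) := hy.2.fst_nhds
    have l2 : Tendsto (fun t => W (b t).1.2) (𝓝[<] 1) (𝓝 y.2.1) := hy.2.snd_nhds.fst_nhds
    obtain ⟨y4, y5⟩ := hb y y1
    have y2' : y.1 * y.2.1 = 0 := y2
    have y3' : y.1 + y.2.1 < 0 := y3
    rcases mul_eq_zero.1 y2' with k | k
    · have k1 : y.2.1 ∈ Ioo (W (max v0 vH)) 0 := ⟨y5, by linarith⟩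
      rw [k] at l1
      exact front_of_sw (gFront e S.sw V vH hs.sw hm.sw
        ⟨c, hc, fun q hq => hr q.swap (by simpa [add_comm] using hq)⟩ hR' hB' _ (curve_sw hb')
        (Wi y.2.1) ((le_max_right _ _).trans_lt (hW.lt (le_max_left _ _) k1))
        (hW.tendsto_fin ⟨m3.trans_lt k1.1, k1.2⟩ l2) (hU.tendsto_top l1))
    · have k1 : y.1 ∈ Ioo (U V) 0 := ⟨y4, by linarith⟩
      rw [k] at l2
      exact gFront e S V uH hs hm ⟨c, hc, hr⟩ hR hB b hb' (Ui y.1) (hR.1.trans (hU.lt le_rfl k1))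
        (hU.tendsto_fin k1 l1) (hW.tendsto_top l2)

end Vale.Agent.P354G
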