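import Vale.Agent.P354G.Conn

/-!
The field equations in the charts in which the first two coordinates are u and v.
-/

open scoped ContDiff
open MeasureTheory Set Filter Topology

namespace Vale.Agent.P354G

open Vale.Agent.P354E
open Vale.Agent.P354n (R4 Spc On tgt co inv IsConn Riem IsSmooth)

variable {e : ℝ} {S : Fld}

/-- the derivative of Low -/
noncomputable def dLow (e : ℝ) (S : Fld) (b c d y a : R4) : ℝ :=
  ((S.O (p2 y) * S.wu (p2 y) * a.1 + S.O (p2 y) * S.wv (p2 y) * a.2.1) * S.wu (p2 y) +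
    S.O (p2 y) * (fderiv ℝ S.wu (p2 y) (1, 0) * a.1 + G3 e S (p2 y) * a.2.1)) *
      (-(b.1 * c.1 * d.2.1) / 2) +
  ((S.O (p2 y) * S.wu (p2 y) * a.1 + S.O (p2 y) * S.wv (p2 y) * a.2.1) * S.wv (p2 y) +
    S.O (p2 y) * (G3 e S (p2 y) * a.1 + fderiv ℝ S.wv (p2 y) (0, 1) * a.2.1)) *
      (-(b.2.1 * c.2.1 * d.1) / 2) +
  (((S.n (p2 y) * a.1 + S.l (p2 y) * a.2.1) * S.l (p2 y) + S.r (p2 y) * (G1 e S (p2 y) * a.1 +
      (S.l (p2 y) * S.wv (p2 y) - S.r (p2 y) * S.pv (p2 y) ^ 2) * a.2.1)) * cf y +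
    S.r (p2 y) * S.l (p2 y) * (2 * cf y * sa y a)) *
      (b.2.1 * ip c d + c.2.1 * ip b d - d.2.1 * ip b c) +
  (((S.n (p2 y) * a.1 + S.l (p2 y) * a.2.1) * S.n (p2 y) + S.r (p2 y) *
      ((S.n (p2 y) * S.wu (p2 y) - S.r (p2 y) * S.pu (p2 y) ^ 2) * a.1 +
        G1 e S (p2 y) * a.2.1)) * cf y +
    S.r (p2 y) * S.n (p2 y) * (2 * cf y * sa y a)) *
      (b.1 * ip c d + c.1 * ip b d - d.1 * ip b c) +
  ((2 * S.r (p2 y) * (S.n (p2 y) * a.1 + S.l (p2 y) * a.2.1) * cf y +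
      S.r (p2 y) ^ 2 * (2 * cf y * sa y a)) * s3 y +
    S.r (p2 y) ^ 2 * cf y * (-2 * a.2.2.1 / sd y + s3 y * sa y a)) *
      (c.2.2.1 * ip b d + b.2.2.1 * ip c d - d.2.2.1 * ip b c) +
  ((2 * S.r (p2 y) * (S.n (p2 y) * a.1 + S.l (p2 y) * a.2.1) * cf y +
      S.r (p2 y) ^ 2 * (2 * cf y * sa y a)) * s4 y +
    S.r (p2 y) ^ 2 * cf y * (-2 * a.2.2.2 / sd y + s4 y * sa y a)) *
      (c.2.2.2 * ip b d + b.2.2.2 * ip c d - d.2.2.2 * ip b c)

lemma ld_low (h : SS e S) (b c d y a : R4) : LD (Low S b c d) y a (dLow e S b c d y a) :=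
  ((((((h.ld_O y a).mul (h.ld_wu y a)).mul_const _).add
    (((h.ld_O y a).mul (h.ld_wv y a)).mul_const _)).add
    ((((h.ld_r y a).mul (h.ld_l y a)).mul (ld_cf y a)).mul_const _)).add
    ((((h.ld_r y a).mul (h.ld_n y a)).mul (ld_cf y a)).mul_const _)).add
    ((((h.ld_r y a).sq.mul (ld_cf y a)).mul (ld_s3 y a)).mul_const _) |>.add
    ((((h.ld_r y a).sq.mul (ld_cf y a)).mul (ld_s4 y a)).mul_const _)

lemma riem_eq (h : SS e S) (y a b c d : R4) : Riem (g0 S) (Gam S) y a b c d =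
    dLow e S b c d y a - dLow e S a c d y b - Low S a d (Gam S y b c) y +
      Low S b d (Gam S y a c) y := by
  have e1 : ∀ b c d, (fun y => g0 S y (Gam S y b c) d) = Low S b c d := fun b c d =>
    funext fun y => low_eq h y b c d
  have e2 : ∀ a b, g0 S y a b = g0 S y b a := fun a b => by simp only [g0, ip]; ring
  unfold Riem
  rw [e1, e1, (ld_low h _ _ _ _ _).deriv_eq, (ld_low h _ _ _ _ _).deriv_eq, e2 (Gam S y b c),
    e2 (Gam S y a c), low_eq h, low_eq h]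

/-- the coordinate basis and the dual basis -/
def Eb : Fin 4 → R4 := ![(1, 0, 0, 0), (0, 1, 0, 0), (0, 0, 1, 0), (0, 0, 0, 1)]
noncomputable def Ed (S : Fld) (y : R4) : Fin 4 → R4 :=
  ![(0, -2 / S.O (p2 y), 0, 0), (-2 / S.O (p2 y), 0, 0, 0),
    (0, 0, 1 / (S.r (p2 y) ^ 2 * cf y), 0), (0, 0, 0, 1 / (S.r (p2 y) ^ 2 * cf y))]

lemma dual (h : SS e S) (y : R4) (i j : Fin 4) :
    g0 S y (Eb i) (Ed S y j) = if i = j then 1 else 0 := by
  have h1 := (h.at' (p2 y)).ne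
  have h2 := O_ne S (p2 y)
  have h3 := (cf_pos y).ne'
  fin_cases i <;> fin_cases j <;> simp [g0, Eb, Ed, ip] <;> field_simp

lemma ricci (h : SS e S) (y b c : R4) :
    ∑ i, Riem (g0 S) (Gam S) y (Eb i) b c (Ed S y i) =
      2 * ((S.pu (p2 y) * b.1 + S.pv (p2 y) * b.2.1) * (S.pu (p2 y) * c.1 + S.pv (p2 y) * c.2.1)) +
      S.O (p2 y) * e ^ 2 / (2 * S.r (p2 y) ^ 4) * (b.1 * c.2.1 + b.2.1 * c.1) +
      e ^ 2 / S.r (p2 y) ^ 2 * cf y * ip b c := by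
  have h1 := (h.at' (p2 y)).ne
  have h2 := O_ne S (p2 y)
  have h3 := (sd_pos y).ne'
  have h4 : sd y = 1 + y.2.2.1 ^ 2 + y.2.2.2 ^ 2 := rfl
  simp only [riem_eq h, Fin.sum_univ_four, Eb, Ed, Matrix.cons_val_zero, Matrix.cons_val_one,
    Matrix.cons_val, dLow, Low, Gam, ip, sa, s3, s4, cf_eq, G1, G3, mul_zero, zero_mul, add_zero,
    zero_add, mul_one, one_mul, sub_zero, neg_zero, zero_div, zero_sub]
  generalize S.O (p2 y) = O at *
  generalize S.r (p2 y) = r at *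
  generalize S.l (p2 y) = l at *
  generalize S.n (p2 y) = n at *
  generalize S.wu (p2 y) = wu at *
  generalize S.wv (p2 y) = wv at *
  generalize S.pu (p2 y) = pu at *
  generalize S.pv (p2 y) = pv at *
  generalize fderiv ℝ S.wu (p2 y) (1, 0) = wuu at *
  generalize fderiv ℝ S.wv (p2 y) (0, 1) = wvv at *
  generalize sd y = s at *
  field_simp
  subst h4
  ring

end Vale.Agent.P354G
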