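import Vale.Agent.P354E.Calc

/-!
Estimates in a quadrant whose future boundary is the Cauchy horizon.
-/

open scoped ContDiff
open MeasureTheory Set Filter Topology

namespace Vale.Agent.P354G

open Vale.Agent.P354E

lemma abs_sub_le_int {F F' H : ℝ → ℝ} {a b : ℝ} (hab : a ≤ b)
    (hd : ∀ s ∈ Icc a b, HasDerivAt F (F' s) s) (hc : ContinuousOn F' (Icc a b))
    (hH : ContinuousOn H (Icc a b)) (hle : ∀ s ∈ Icc a b, |F' s| ≤ H s) :
    |F b - F a| ≤ ∫ s in a..b, H s := by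
  rw [← intervalIntegral.integral_eq_sub_of_hasDerivAt (by rwa [uIcc_of_le hab])
    (hc.intervalIntegrable_of_Icc hab)]
  exact (intervalIntegral.abs_integral_le_integral_abs hab).trans
    (intervalIntegral.integral_mono_on hab (hc.abs.intervalIntegrable_of_Icc hab)
      (hH.intervalIntegrable_of_Icc hab) hle)

lemma int_le_Ici {f : ℝ → ℝ} {a b : ℝ} (hab : a ≤ b) (hi : IntegrableOn f (Ici a))
    (h0 : ∀ x, a ≤ x → 0 ≤ f x) : ∫ s in a..b, f s ≤ ∫ s in Ici a, f s := by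
  rw [intervalIntegral.integral_of_le hab]
  refine setIntegral_mono_set hi ?_ (Eventually.of_forall fun x hx => hx.1.le)
  exact (ae_restrict_iff' measurableSet_Ici).2 (Eventually.of_forall h0)

lemma integrableOn_of_bdd {f : ℝ → ℝ} {a C : ℝ} (hc : Continuous f)
    (h : ∀ b, a ≤ b → ∫ s in a..b, |f s| ≤ C) : IntegrableOn f (Ici a) := by
  rw [integrableOn_Ici_iff_integrableOn_Ioi]
  refine integrableOn_Ioi_of_intervalIntegral_norm_bounded (b := fun x : ℝ => x) (l := atTop) C a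
    (fun i => hc.integrableOn_Icc.mono_set Ioc_subset_Icc_self) tendsto_id ?_
  filter_upwards [eventually_ge_atTop a] with i hi using h i hi

lemma integrableOn_of_le {f g : ℝ → ℝ} {a : ℝ} (hc : ContinuousOn f (Ici a))
    (hg : IntegrableOn g (Ici a)) (h : ∀ x, a ≤ x → |f x| ≤ g x) : IntegrableOn f (Ici a) :=
  Integrable.mono' hg (hc.aestronglyMeasurable measurableSet_Ici)
    ((ae_restrict_iff' measurableSet_Ici).2 (Eventually.of_forall h))

lemma cu {f : P2 → ℝ} (h : ContinuousOn f univ) (v : ℝ) : Continuous fun s => f (s, v) :=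
  (continuousOn_univ.1 h).comp (by fun_prop)

lemma cv {f : P2 → ℝ} (h : ContinuousOn f univ) (u : ℝ) : Continuous fun s => f (u, s) :=
  (continuousOn_univ.1 h).comp (by fun_prop)

lemma quad_sw {S : Fld} {u0 v0 : ℝ} (h : Quad S u0 v0) : Quad S.sw v0 u0 := by
  obtain ⟨h0, C, f, g, h1, h2, h3, h4, h5, h6, h7⟩ := h
  refine ⟨by linarith, C, g, f, h2, h1, h4, h3, h6, h5, fun u v hu hv => ?_⟩
  obtain ⟨k1, k2, k3, k4, k5⟩ := h7 v u hv hu
  exact ⟨k2, k1, by rw [mul_comm]; exact k3, k5, k4⟩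

variable {e : ℝ} {S : Fld} {u0 v0 c : ℝ}

lemma quad_r (h : IsSol e S univ) (hq : Quad S u0 v0) {u v : ℝ} (hu : u0 ≤ u) (hv : v0 ≤ v) :
    S.r (u, v) ≤ S.r (u0, v0) := by
  obtain ⟨-, C, f, g, -, -, -, -, -, -, h7⟩ := hq
  exact (h.r_anti_u hu (fun _ _ => trivial) (h7 u0 v le_rfl hv).2.1.le).trans
    (h.r_anti_v hv (fun _ _ => trivial) (h7 u0 v0 le_rfl le_rfl).1.le)

/-- the bounds which are integrable in v -/
lemma side (h : IsSol e S univ) (hc : 0 < c) (hr : ∀ q : P2, 0 ≤ q.1 + q.2 → c ≤ S.r q)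
    (hq : Quad S u0 v0) : IntegrableOn (fun v => S.O (u0, v)) (Ici v0) ∧
    ∃ k : ℝ → ℝ, ContinuousOn k (Ici v0) ∧ IntegrableOn k (Ici v0) ∧ ∀ u v, u0 ≤ u → v0 ≤ v →
      |S.l (u, v)| ≤ k v ∧ |S.wv (u, v) - S.wv (u0, v)| ≤ k v := by
  have hR := fun u v hu hv => quad_r h hq (u := u) (v := v) hu hv
  obtain ⟨h0, C, f, g, h1, h2, h3, h4, h5, h6, h7⟩ := hq
  have hr' : ∀ u v, u0 ≤ u → v0 ≤ v → c ≤ S.r (u, v) := fun u v hu hv => hr _ (by
    show 0 ≤ u + v
    linarith)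
  set R := S.r (u0, v0) with hRd
  have hR0 : 0 < R := h.pos trivial
  set I := ∫ s in Ici u0, f s with hI
  have hI0 : 0 ≤ I := setIntegral_nonneg measurableSet_Ici h5
  have hC0 : 0 ≤ C := by simpa using (h7 u0 v0 le_rfl le_rfl).2.2.2.1
  refine ⟨integrableOn_of_le (cv h.cont.O u0).continuousOn (h4.const_mul (f u0)) fun v hv => ?_, ?_⟩
  · rw [abs_of_pos (O_pos _ _)]
    exact (h7 u0 v le_rfl hv).2.2.1
  have three : ∀ (F F' : P2 → ℝ) (u v α β γ : ℝ), u0 ≤ u → v0 ≤ v → 0 ≤ α → 0 ≤ β → 0 ≤ γ →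
      (∀ q, Du F q (F' q)) → ContinuousOn F' univ →
      (∀ s, u0 ≤ s → |F' (s, v)| ≤ α * f s + β * |S.pu (s, v)| + γ * -S.n (s, v)) →
      |F (u, v) - F (u0, v)| ≤ α * I + β * C + γ * R := by
    intro F F' u v α β γ hu hv ha hb hg hd hF hle
    have c1 : ContinuousOn f (Icc u0 u) := h1.mono fun _ hx => hx.1
    have c2 : Continuous fun s => |S.pu (s, v)| := (cu h.cont.pu v).abs
    have c3 : Continuous fun s => S.n (s, v) := cu h.cont.n v
    refine (abs_sub_le_int (F := fun s => F (s, v)) (F' := fun s => F' (s, v))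
      (H := fun s => α * f s + β * |S.pu (s, v)| + γ * -S.n (s, v)) hu (fun s _ => hd (s, v))
      (cu hF v).continuousOn (((continuousOn_const.mul c1).add
        (continuous_const.mul c2).continuousOn).add (continuous_const.mul c3.neg).continuousOn)
      fun s hs => hle s hs.1).trans ?_
    have i1 := c1.intervalIntegrable_of_Icc (μ := volume) hu
    have i2 := c2.intervalIntegrable (μ := volume) u0 u
    have i3 : IntervalIntegrable (fun s => -S.n (s, v)) volume u0 u :=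
      c3.neg.intervalIntegrable u0 u
    rw [intervalIntegral.integral_add ((i1.const_mul α).add (i2.const_mul β)) (i3.const_mul γ),
      intervalIntegral.integral_add (i1.const_mul α) (i2.const_mul β),
      intervalIntegral.integral_const_mul, intervalIntegral.integral_const_mul,
      intervalIntegral.integral_const_mul, intervalIntegral.integral_neg,
      h.int_n hu (fun _ _ => trivial)]
    have k1 := int_le_Ici hu h3 h5
    have k2 := (h7 u v hu hv).2.2.2.2
    have k3 : -(S.r (u, v) - S.r (u0, v)) ≤ R := by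
      linarith [hR u0 v le_rfl hv, h.pos (q := (u, v)) trivial]
    gcongr
  have hsol := fun q => h.sol q trivial
  obtain ⟨A, hA⟩ : ∃ A, A = (1 + e ^ 2 / c ^ 2) / 4 := ⟨_, rfl⟩
  have hA0 : 0 ≤ A := by rw [hA]; positivity
  have her : ∀ u v, u0 ≤ u → v0 ≤ v → e ^ 2 / S.r (u, v) ^ 2 ≤ e ^ 2 / c ^ 2 := fun u v hu hv => by
    have := hr' u v hu hv
    gcongr
  obtain ⟨L, hL⟩ : ∃ L : ℝ → ℝ, L = fun v => (R * |S.l (u0, v)| + A * I * g v) / c := ⟨_, rfl⟩
  have bl : ∀ u v, u0 ≤ u → v0 ≤ v → |S.l (u, v)| ≤ L v := by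
    intro u v hu hv
    have hg := h6 v hv
    have k := three (fun q => S.r q * S.l q) _ u v (A * g v) 0 0 hu hv (by positivity) le_rfl le_rfl
      (fun q => (hsol q).rl_u) h.cont_H (fun s hs => by
        have k1 := (h7 s v hs hv).2.2.1
        have k2 := her s v hs hv
        have k3 := O_pos S (s, v)
        have k4 : 0 ≤ e ^ 2 / S.r (s, v) ^ 2 := by positivity
        have k5 : |1 - e ^ 2 / S.r (s, v) ^ 2| ≤ 4 * A := by
          rw [hA, abs_le]; constructor <;> linarith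
        rw [abs_mul, abs_neg, abs_of_pos (by positivity)]
        calc S.O (s, v) / 4 * |1 - e ^ 2 / S.r (s, v) ^ 2| ≤ f s * g v / 4 * (4 * A) := by
              have := h5 s hs
              gcongr
          _ = _ := by ring)
    have k1 := hr' u v hu hv
    have k2 := hR u0 v le_rfl hv
    have k3 := h.pos (q := (u0, v)) trivial
    have k4 : |S.r (u, v) * S.l (u, v)| ≤ |S.r (u0, v) * S.l (u0, v)| + A * g v * I := by
      linarith [abs_sub_abs_le_abs_sub (S.r (u, v) * S.l (u, v)) (S.r (u0, v) * S.l (u0, v))]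
    rw [abs_mul, abs_mul, abs_of_pos k3, abs_of_pos (hc.trans_le k1)] at k4
    rw [hL, le_div_iff₀ hc]
    nlinarith [abs_nonneg (S.l (u, v)), abs_nonneg (S.l (u0, v))]
  have hL0 : ∀ v, v0 ≤ v → 0 ≤ L v := fun v hv => (abs_nonneg _).trans (bl u0 v le_rfl hv)
  obtain ⟨P, hP⟩ : ∃ P : ℝ → ℝ, P = fun v => (R * |S.pv (u0, v)| + C * L v) / c := ⟨_, rfl⟩
  have bp : ∀ u v, u0 ≤ u → v0 ≤ v → |S.pv (u, v)| ≤ P v := by
    intro u v hu hv
    have k := three (fun q => S.r q * S.pv q) _ u v 0 (L v) 0 hu hv le_rfl (hL0 v hv) le_rfl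
      (fun q => (hsol q).th_u) (h.cont.l.mul h.cont.pu).neg (fun s hs => by
        have k1 := bl s v hs hv
        rw [abs_neg, abs_mul]
        have := abs_nonneg (S.pu (s, v))
        nlinarith)
    have k1 := hr' u v hu hv
    have k2 := hR u0 v le_rfl hv
    have k3 := h.pos (q := (u0, v)) trivial
    have k4 : |S.r (u, v) * S.pv (u, v)| ≤ |S.r (u0, v) * S.pv (u0, v)| + L v * C := by
      linarith [abs_sub_abs_le_abs_sub (S.r (u, v) * S.pv (u, v)) (S.r (u0, v) * S.pv (u0, v))]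
    rw [abs_mul, abs_mul, abs_of_pos k3, abs_of_pos (hc.trans_le k1)] at k4
    rw [hP, le_div_iff₀ hc]
    nlinarith [abs_nonneg (S.pv (u, v)), abs_nonneg (S.pv (u0, v))]
  have hP0 : ∀ v, v0 ≤ v → 0 ≤ P v := fun v hv => (abs_nonneg _).trans (bp u0 v le_rfl hv)
  obtain ⟨B, hB⟩ : ∃ B, B = e ^ 2 / c ^ 4 + 1 / (2 * c ^ 2) := ⟨_, rfl⟩
  have hB0 : 0 ≤ B := by rw [hB]; positivity
  have bw : ∀ u v, u0 ≤ u → v0 ≤ v → |S.wv (u, v) - S.wv (u0, v)| ≤
      B * g v * I + 2 * P v * C + 2 * L v / c ^ 2 * R := by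
    intro u v hu hv
    have hg := h6 v hv
    have hl := hL0 v hv
    have hp := hP0 v hv
    refine three S.wv _ u v _ _ _ hu hv (by positivity) (by positivity) (by positivity)
      (fun q => (hsol q).wv_u) h.cont_G3 (fun s hs => ?_)
    obtain ⟨k1, k2, k3, -⟩ := h7 s v hs hv
    have k4 := hr' s v hs hv
    have k5 := O_pos S (s, v)
    have k6 := h5 s hs
    have k7 := bl s v hs hv
    have k8 := bp s v hs hv
    have t1 : |-2 * S.pu (s, v) * S.pv (s, v)| ≤ 2 * P v * |S.pu (s, v)| := by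
      rw [abs_mul, abs_mul, abs_neg, abs_two]
      have := abs_nonneg (S.pu (s, v))
      nlinarith
    have t2 : S.O (s, v) * e ^ 2 / S.r (s, v) ^ 4 ≤ f s * g v * e ^ 2 / c ^ 4 := by gcongr
    have t3 : S.O (s, v) / (2 * S.r (s, v) ^ 2) ≤ f s * g v / (2 * c ^ 2) := by gcongr
    have t4 : 2 * S.l (s, v) * S.n (s, v) / S.r (s, v) ^ 2 ≤ 2 * L v * -S.n (s, v) / c ^ 2 := by
      have e1 : 2 * S.l (s, v) * S.n (s, v) = 2 * |S.l (s, v)| * -S.n (s, v) := by
        rw [abs_of_neg k1]; ring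
      rw [e1]
      have : 0 ≤ -S.n (s, v) := by linarith
      gcongr
    have t5 : 0 ≤ S.O (s, v) * e ^ 2 / S.r (s, v) ^ 4 := by positivity
    have t6 : 0 ≤ S.O (s, v) / (2 * S.r (s, v) ^ 2) := by positivity
    have t7 : 0 ≤ 2 * S.l (s, v) * S.n (s, v) / S.r (s, v) ^ 2 :=
      div_nonneg (by nlinarith) (sq_nonneg _)
    have t8 : B * g v * f s = f s * g v * e ^ 2 / c ^ 4 + f s * g v / (2 * c ^ 2) := by
      rw [hB]; ring
    have t9 : 2 * L v / c ^ 2 * -S.n (s, v) = 2 * L v * -S.n (s, v) / c ^ 2 := by ring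
    rw [t8, t9]
    unfold G3
    rw [abs_le] at t1 ⊢
    constructor <;> linarith [t1.1, t1.2]
  have cl : Continuous fun v => S.l (u0, v) := cv h.cont.l u0
  have cp : Continuous fun v => S.pv (u0, v) := cv h.cont.pv u0
  have il : IntegrableOn (fun v => S.l (u0, v)) (Ici v0) := by
    refine integrableOn_of_bdd (C := R) cl fun b hb => ?_
    have e1 : ∫ s in v0..b, |S.l (u0, s)| = ∫ s in v0..b, -S.l (u0, s) := by
      refine intervalIntegral.integral_congr fun s hs => ?_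
      rw [uIcc_of_le hb] at hs
      exact abs_of_neg (h7 u0 s le_rfl hs.1).1
    rw [e1, intervalIntegral.integral_neg, h.int_l hb (fun _ _ => trivial)]
    linarith [h.pos (q := (u0, b)) trivial]
  have ip : IntegrableOn (fun v => S.pv (u0, v)) (Ici v0) :=
    integrableOn_of_bdd cp fun b hb => (h7 u0 b le_rfl hb).2.2.2.1
  have cL : ContinuousOn L (Ici v0) := by
    rw [hL]
    exact ((continuous_const.mul cl.abs).continuousOn.add (continuousOn_const.mul h2)).div_const c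
  have iL : IntegrableOn L (Ici v0) := by
    rw [hL]
    exact ((il.abs.const_mul R).add (h4.const_mul _)).div_const c
  have cP : ContinuousOn P (Ici v0) := by
    rw [hP]
    exact ((continuous_const.mul cp.abs).continuousOn.add (continuousOn_const.mul cL)).div_const c
  have iP : IntegrableOn P (Ici v0) := by
    rw [hP]
    exact ((ip.abs.const_mul R).add (iL.const_mul _)).div_const c
  refine ⟨fun v => L v + (B * g v * I + 2 * P v * C + 2 * L v / c ^ 2 * R), ?_, ?_,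
    fun u v hu hv => ⟨?_, ?_⟩⟩
  · exact cL.add ((((continuousOn_const.mul h2).mul continuousOn_const).add
      ((continuousOn_const.mul cP).mul continuousOn_const)).add
      (((continuousOn_const.mul cL).div_const _).mul continuousOn_const))
  · exact iL.add ((((h4.const_mul B).mul_const I).add ((iP.const_mul 2).mul_const C)).add
      (((iL.const_mul 2).div_const _).mul_const R))
  · linarith [bl u v hu hv, (abs_nonneg _).trans (bw u v hu hv)]
  · linarith [bw u v hu hv, hL0 v hv]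

/-- the estimates in the quadrant -/
structure QE (e : ℝ) (S : Fld) (u0 v0 K : ℝ) (ku kv : ℝ → ℝ) : Prop where
  one : 1 ≤ K
  iu : IntegrableOn (fun u => S.O (u, v0)) (Ici u0)
  iv : IntegrableOn (fun v => S.O (u0, v)) (Ici v0)
  cku : ContinuousOn ku (Ici u0)
  ckv : ContinuousOn kv (Ici v0)
  iku : IntegrableOn ku (Ici u0)
  ikv : IntegrableOn kv (Ici v0)
  r : ∀ u v, u0 ≤ u → v0 ≤ v → 1 ≤ K * S.r (u, v) ∧ S.r (u, v) ≤ K
  O : ∀ u v, u0 ≤ u → v0 ≤ v → S.O (u, v) ≤ K * (S.O (u, v0) * S.O (u0, v)) ∧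
    S.O (u, v0) * S.O (u0, v) ≤ K * S.O (u, v)
  bu : ∀ u v, u0 ≤ u → v0 ≤ v → |S.n (u, v)| ≤ ku u ∧ |S.wu (u, v) - S.wu (u, v0)| ≤ ku u
  bv : ∀ u v, u0 ≤ u → v0 ≤ v → |S.l (u, v)| ≤ kv v ∧ |S.wv (u, v) - S.wv (u0, v)| ≤ kv v
  H : ∀ u v, u0 ≤ u → v0 ≤ v → |1 - e ^ 2 / S.r (u, v) ^ 2| ≤ K
  rl : ∀ u v, u0 ≤ u → v0 ≤ v →
    |S.r (u, v) * S.l (u, v) - S.r (u0, v) * S.l (u0, v)| ≤ K * S.O (u0, v)

theorem exists_QE (h : IsSol e S univ) (hc : 0 < c) (hr : ∀ q : P2, 0 ≤ q.1 + q.2 → c ≤ S.r q)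
    (hq : Quad S u0 v0) : ∃ K ku kv, QE e S u0 v0 K ku kv := by
  obtain ⟨iv, kv, ckv, ikv, bv⟩ := side h hc hr hq
  obtain ⟨iu, ku, cku, iku, bu⟩ := side (S := S.sw) h.sw hc
    (fun q hq => hr q.swap (by simpa [add_comm] using hq)) (quad_sw hq)
  have hR := fun u v hu hv => quad_r h hq (u := u) (v := v) hu hv
  have hr' : ∀ u v, u0 ≤ u → v0 ≤ v → c ≤ S.r (u, v) := fun u v hu hv => hr _ (by
    show 0 ≤ u + v
    linarith [hq.1])
  have hsol := fun q => h.sol q trivial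
  have kv0 : ∀ v, v0 ≤ v → 0 ≤ kv v := fun v hv => (abs_nonneg _).trans (bv u0 v le_rfl hv).1
  obtain ⟨B, hB⟩ : ∃ B, B = (∫ s in Ici v0, kv s) + |S.w (u0, v0)| := ⟨_, rfl⟩
  have bw : ∀ u v, u0 ≤ u → v0 ≤ v → |S.w (u, v) - S.w (u, v0) - S.w (u0, v)| ≤ B := by
    intro u v hu hv
    have k := (abs_sub_le_int (F := fun s => S.w (u, s) - S.w (u0, s))
      (F' := fun s => S.wv (u, s) - S.wv (u0, s)) (H := kv) hv
      (fun s _ => HasDerivAt.sub (hsol (u, s)).w_v (hsol (u0, s)).w_v)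
      ((cv h.cont.wv u).sub (cv h.cont.wv u0)).continuousOn (ckv.mono fun _ hx => hx.1)
      fun s hs => (bv u s hu hs.1).2).trans (int_le_Ici hv ikv kv0)
    rw [hB]
    rw [abs_le] at k ⊢
    constructor <;> linarith [k.1, k.2, le_abs_self (S.w (u0, v0)), neg_abs_le (S.w (u0, v0))]
  have bO : ∀ u v, u0 ≤ u → v0 ≤ v → S.O (u, v) ≤ Real.exp B * (S.O (u, v0) * S.O (u0, v)) ∧
      S.O (u, v0) * S.O (u0, v) ≤ Real.exp B * S.O (u, v) := by
    intro u v hu hv
    have k := abs_le.1 (bw u v hu hv)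
    simp only [Fld.O, ← Real.exp_add, Real.exp_le_exp]
    constructor <;> linarith [k.1, k.2]
  obtain ⟨A, hA⟩ : ∃ A, A = 1 + e ^ 2 / c ^ 2 := ⟨_, rfl⟩
  have hA0 : 0 ≤ A := by rw [hA]; positivity
  have bH : ∀ u v, u0 ≤ u → v0 ≤ v → |1 - e ^ 2 / S.r (u, v) ^ 2| ≤ A := by
    intro u v hu hv
    have k1 := hr' u v hu hv
    have k2 : e ^ 2 / S.r (u, v) ^ 2 ≤ e ^ 2 / c ^ 2 := by gcongr
    have k4 : 0 ≤ e ^ 2 / S.r (u, v) ^ 2 := by positivity
    rw [hA, abs_le]; constructor <;> linarith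
  obtain ⟨I, hI⟩ : ∃ I, I = ∫ s in Ici u0, S.O (s, v0) := ⟨_, rfl⟩
  have hI0 : 0 ≤ I := hI ▸ setIntegral_nonneg measurableSet_Ici fun s _ => (O_pos _ _).le
  have brl : ∀ u v, u0 ≤ u → v0 ≤ v → |S.r (u, v) * S.l (u, v) - S.r (u0, v) * S.l (u0, v)| ≤
      Real.exp B * A * I * S.O (u0, v) := by
    intro u v hu hv
    have c1 : Continuous fun s => S.O (s, v0) := cu h.cont.O v0
    have k0 := O_pos S (u0, v)
    refine (abs_sub_le_int (F := fun s => S.r (s, v) * S.l (s, v))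
      (H := fun s => (Real.exp B * A * S.O (u0, v)) * S.O (s, v0)) hu
      (fun s _ => (hsol (s, v)).rl_u) (cu h.cont_H v).continuousOn
      (continuous_const.mul c1).continuousOn fun s hs => ?_).trans ?_
    · have k1 := (bO s v hs.1 hv).1
      have k2 := bH s v hs.1 hv
      have k3 := O_pos S (s, v)
      have k4 := O_pos S (s, v0)
      rw [abs_mul, abs_neg, abs_of_pos (by positivity)]
      calc S.O (s, v) / 4 * |1 - e ^ 2 / S.r (s, v) ^ 2| ≤ S.O (s, v) * A := by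
            gcongr; linarith
        _ ≤ Real.exp B * (S.O (s, v0) * S.O (u0, v)) * A := by gcongr
        _ = _ := by ring
    · rw [intervalIntegral.integral_const_mul]
      have k1 : ∫ s in u0..u, S.O (s, v0) ≤ I := hI ▸ int_le_Ici hu iu fun s _ => (O_pos _ _).le
      calc _ ≤ Real.exp B * A * S.O (u0, v) * I := by gcongr
        _ = _ := by ring
  have p1 : 0 < 1 / c := by positivity
  have p2 : 0 < S.r (u0, v0) := h.pos trivial
  have p3 := Real.exp_pos B
  have p4 : 0 ≤ Real.exp B * A * I := by positivity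
  obtain ⟨K, hK⟩ : ∃ K, K = 1 + 1 / c + S.r (u0, v0) + Real.exp B + A + Real.exp B * A * I :=
    ⟨_, rfl⟩
  refine ⟨K, ku, kv, by linarith, iu, iv, cku, ckv, iku, ikv, fun u v hu hv => ⟨?_, ?_⟩,
    fun u v hu hv => ⟨?_, ?_⟩, fun u v hu hv => bu v u hv hu, bv, fun u v hu hv => ?_,
    fun u v hu hv => ?_⟩
  · have k1 := hr' u v hu hv
    have k2 : 1 / c ≤ K := by linarith
    calc 1 = 1 / c * c := by field_simp
      _ ≤ _ := by gcongr; linarith
  · linarith [hR u v hu hv]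
  · refine (bO u v hu hv).1.trans ?_
    have := O_pos S (u, v0)
    have := O_pos S (u0, v)
    gcongr; linarith
  · refine (bO u v hu hv).2.trans ?_
    have := O_pos S (u, v)
    gcongr; linarith
  · linarith [bH u v hu hv]
  · refine (brl u v hu hv).trans ?_
    have := O_pos S (u0, v)
    gcongr; linarith

end Vale.Agent.P354G
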