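import Vale.Agent.P354G.Box

/-!
The Cauchy horizon is a weak null singularity.
-/

open scoped ContDiff
open MeasureTheory Set Filter Topology

namespace Vale.Agent.P354G

open Vale.Agent.P354E
open Vale.Agent.P354n (R4 Spc On tgt co inv IsDNBox InLp form du dv nullBox)

variable {e : ℝ} {S : Fld} {u0 v0 K V : ℝ} {ku kv U Ui W Wi : ℝ → ℝ}

/-- the blow up passes from the ray u = V to all rays of the quadrant -/
lemma blow_all (h : IsSol e S univ) (hE : QE e S u0 v0 K ku kv) (hV : u0 ≤ V) (hB : Blow S V)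
    {u v1 : ℝ} (hu : u0 ≤ u) (h1 : v0 ≤ v1) (h2 : V ≤ v1) :
    ¬ IntegrableOn (fun v => (S.r (u, v) * S.l (u, v)) ^ 2 / S.O (u0, v)) (Ici v1) := by
  intro hi
  have c1 : Continuous fun v => S.l (V, v) ^ 2 / S.O (V, v) :=
    ((cv h.cont.l V).pow 2).div (cv h.cont.O V) fun _ => O_ne _ _
  have K1 := hE.one
  have p0 := O_pos S (V, v0)
  have i1 : IntegrableOn (fun v => S.l (V, v) ^ 2 / S.O (V, v)) (Ici v1) := by
    refine integrableOn_of_le c1.continuousOn (((hi.const_mul 2).add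
      ((hE.iv.mono_set (Ici_subset_Ici.2 h1)).const_mul (8 * K ^ 2))).const_mul
        (K ^ 3 / S.O (V, v0))) fun v hv => ?_
    have hv0 := h1.trans hv
    have q0 := O_pos S (u0, v)
    have o0 := O_pos S (V, v)
    have k1 := abs_le.1 (hE.rl V v hV hv0)
    have k2 := abs_le.1 (hE.rl u v hu hv0)
    have k3 := (hE.r V v hV hv0).1
    have k4 := (hE.O V v hV hv0).2
    have k5 : (S.r (V, v) * S.l (V, v)) ^ 2 ≤
        2 * (S.r (u, v) * S.l (u, v)) ^ 2 + 8 * K ^ 2 * S.O (u0, v) ^ 2 := by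
      have t1 : (S.r (V, v) * S.l (V, v) - S.r (u, v) * S.l (u, v)) ^ 2 ≤
          (2 * (K * S.O (u0, v))) ^ 2 := sq_le_sq' (by linarith [k1.1, k2.2]) (by linarith [k1.2, k2.1])
      nlinarith [sq_nonneg (S.r (V, v) * S.l (V, v) - 2 * (S.r (u, v) * S.l (u, v)))]
    have k6 : S.l (V, v) ^ 2 ≤ K ^ 2 * (S.r (V, v) * S.l (V, v)) ^ 2 := by
      have t1 : 1 ≤ (K * S.r (V, v)) ^ 2 := one_le_pow₀ k3
      calc S.l (V, v) ^ 2 ≤ (K * S.r (V, v)) ^ 2 * S.l (V, v) ^ 2 :=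
            le_mul_of_one_le_left (sq_nonneg _) t1
        _ = _ := by ring
    have k7 : 1 / S.O (V, v) ≤ K / (S.O (V, v0) * S.O (u0, v)) := by
      rw [div_le_div_iff₀ o0 (mul_pos p0 q0)]
      linarith
    rw [abs_of_nonneg (by positivity)]
    calc S.l (V, v) ^ 2 / S.O (V, v) = S.l (V, v) ^ 2 * (1 / S.O (V, v)) := by ring
      _ ≤ K ^ 2 * (2 * (S.r (u, v) * S.l (u, v)) ^ 2 + 8 * K ^ 2 * S.O (u0, v) ^ 2) *
          (K / (S.O (V, v0) * S.O (u0, v))) := by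
          gcongr
          exact k6.trans (by gcongr)
      _ = _ := by
          simp only [Pi.add_apply]
          field_simp
  have i2 : IntegrableOn (fun v => S.l (V, v) ^ 2 / S.O (V, v)) (Ici V) := by
    rw [← Icc_union_Ici_eq_Ici h2]
    exact c1.integrableOn_Icc.union i1
  obtain ⟨v, hv, hN⟩ := hB (∫ v in Ici V, S.l (V, v) ^ 2 / S.O (V, v))
  exact absurd (int_le_Ici hv i2 fun x _ => div_nonneg (sq_nonneg _) (O_pos _ _).le) (not_le.2 hN)

variable (h : SS e S) (hU : Co (fun u => S.O (u, v0)) u0 U Ui)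
  (hW : Co (fun v => S.O (u0, v)) v0 W Wi) (hE : QE e S u0 v0 K ku kv)

include h hU hW hE

lemma not_L2 (hV : u0 ≤ V) (hB : Blow S V) {y : R4} (hy : y.1 ∈ Ioo (U u0) 0) {b : ℝ}
    (hb : b < 0) : ¬ InLp 2 (fun v => P354n.deriv (CA S Ui Wi) (y.1, v, y.2.2) dv) b := by
  intro hL
  obtain ⟨v1, k1, k2, k3⟩ := ((hW.lim.eventually (lt_mem_nhds hb)).and
    ((eventually_ge_atTop v0).and (eventually_ge_atTop V))).exists
  have hs : Ioo (W v1) 0 ⊆ Ioo (W v0) 0 := Ioo_subset_Ioo_left (hW.mono.monotone k2)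
  obtain ⟨g, hg⟩ : ∃ g : ℝ → ℝ, g = fun s =>
    2 * (S.r (Ui y.1, Wi s) * S.l (Ui y.1, Wi s) / S.O (u0, Wi s)) * cf y := ⟨_, rfl⟩
  have c0 : ContinuousOn Wi (Ioo (W v1) 0) := hW.smi.continuousOn.mono hs
  have c1 : ContinuousOn g (Ioo (W v1) 0) := by
    rw [hg]
    exact (continuousOn_const.mul ((((cv h.sol.cont.r _).comp_continuousOn c0).mul
      ((cv h.sol.cont.l _).comp_continuousOn c0)).div ((cv h.sol.cont.O _).comp_continuousOn c0)
      fun _ _ => O_ne _ _)).mul continuousOn_const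
  have m1 : MemLp g 2 (volume.restrict (Ioo (W v1) 0)) := by
    refine ⟨c1.aestronglyMeasurable measurableSet_Ioo, ?_⟩
    have e1 : g =ᵐ[volume.restrict (Ioo (W v1) 0)]
        fun v => P354n.deriv (CA S Ui Wi) (y.1, v, y.2.2) dv := by
      refine (ae_restrict_iff' measurableSet_Ioo).2 (Eventually.of_forall fun s hs' => ?_)
      rw [hg]
      exact (CA_dv h hU hW (y := (y.1, s, y.2.2)) ⟨hy, hs hs'⟩).symm
    rw [eLpNorm_congr_ae e1]
    exact (eLpNorm_mono_measure _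
      (Measure.restrict_mono (Ioo_subset_Ioo_left k1.le) le_rfl)).trans_lt hL
  have m2 := (hW.integrableOn_iff k2 fun s => g s ^ 2).1
    ((memLp_two_iff_integrable_sq m1.1).1 m1)
  refine blow_all h.sol hE hV hB (hU.lt le_rfl hy).le k2 k3 ?_
  rw [integrableOn_Ici_iff_integrableOn_Ioi]
  refine IntegrableOn.congr_fun (m2.const_mul (1 / (4 * cf y ^ 2))) (fun x _ => ?_)
    measurableSet_Ioi
  have := (cf_pos y).ne'
  have := O_ne S (u0, x)
  simp only [hg, hW.left]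
  field_simp
  ring

lemma second {w b : R4} (hw : w ∈ TT U W u0 v0) (hb : b.2.1 = 0) :
    |P354n.deriv (fun y => P354n.deriv (CA S Ui Wi) y dv) w b| ≤
      (2 * K ^ 2 + 4 * |P354n.deriv (CA S Ui Wi) w dv|) * ‖b‖ := by
  obtain ⟨hu, hv⟩ := iq_mem hU hW hw
  have hO : ContDiff ℝ ∞ fun x : P2 => S.O (u0, x.2) :=
    (contDiffOn_univ.1 h.O_sm).comp (by fun_prop : ContDiff ℝ ∞ fun x : P2 => ((u0, x.2) : P2))
  have hf : ContDiff ℝ ∞ fun x : P2 => S.r x * S.l x / S.O (u0, x.2) :=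
    ((contDiffOn_univ.1 h.sm.r).mul (contDiffOn_univ.1 h.sm.l)).div hO fun _ => O_ne _ _
  have hd := hf.differentiable (by simp) (iq Ui Wi w)
  have hu' : Du (fun x : P2 => S.r x * S.l x / S.O (u0, x.2)) (iq Ui Wi w)
      (-(S.O (iq Ui Wi w) / 4) * (1 - e ^ 2 / S.r (iq Ui Wi w) ^ 2) / S.O (u0, Wi w.2.1)) :=
    HasDerivAt.div_const (h.at' (iq Ui Wi w)).rl_u (S.O (u0, Wi w.2.1))
  have l1 := (LD.const_mul 2 (ld_iq hU hW hw hd hu' (dv_fderiv hd) b)).mul (ld_cf w b)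
  have l2 := l1.congr_ev (g := fun y => P354n.deriv (CA S Ui Wi) y dv)
    (eventually_of_mem ((isOpen_TT U W u0 v0).mem_nhds hw) fun y hy => CA_dv h hU hW hy)
  rw [l2.deriv_eq, hb, CA_dv h hU hW hw]
  obtain ⟨B0, B1, -⟩ := CB_bd hU hW hE hw
  have H1 : |1 - e ^ 2 / S.r (iq Ui Wi w) ^ 2| ≤ K := hE.H _ _ hu hv
  have c0 := cf_pos w
  have c4 := cf_le w
  have K1 := hE.one
  have e1 : 2 * (-(S.O (iq Ui Wi w) / 4) * (1 - e ^ 2 / S.r (iq Ui Wi w) ^ 2) / S.O (u0, Wi w.2.1) *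
      ((S.O (Ui w.1, v0))⁻¹ * b.1) + (fderiv ℝ (fun x : P2 => S.r x * S.l x / S.O (u0, x.2))
        (iq Ui Wi w)) (0, 1) * ((S.O (u0, Wi w.2.1))⁻¹ * 0)) * cf w =
      -(CB S u0 v0 Ui Wi w * (1 - e ^ 2 / S.r (iq Ui Wi w) ^ 2) * b.1 * cf w / 2) := by
    have := O_ne S (u0, Wi w.2.1)
    have := O_ne S (Ui w.1, v0)
    rw [CB_eq]
    simp only [iq]
    field_simp
    ring
  have t1 : |-(CB S u0 v0 Ui Wi w * (1 - e ^ 2 / S.r (iq Ui Wi w) ^ 2) * b.1 * cf w / 2)| ≤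
      2 * K ^ 2 * ‖b‖ := by
    rw [abs_neg, abs_div, abs_mul, abs_mul, abs_mul, abs_of_pos B0, abs_of_pos c0, abs_two]
    calc _ ≤ K * K * ‖b‖ * 4 / 2 := by gcongr; exact abs_1 b
      _ = _ := by ring
  have t2 : ∀ D : ℝ, |2 * D * (2 * cf w * sa w b)| ≤ 4 * |2 * D * cf w| * ‖b‖ := by
    intro D
    rw [show 2 * D * (2 * cf w * sa w b) = 2 * (2 * D * cf w) * sa w b by ring, abs_mul, abs_mul,
      abs_two]
    calc _ ≤ 2 * |2 * D * cf w| * (2 * ‖b‖) := by gcongr; exact abs_sa w b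
      _ = _ := by ring
  rw [e1, add_mul]
  exact (abs_add_le _ _).trans (add_le_add t1 (t2 _))

/-- the set in the definition of a weak null singularity is not null -/
lemma sing (hV : u0 ≤ V) (hB : Blow S V) {x : R4} (hx : x ∈ TT U W u0 v0) {c : ℝ} (hc : 0 < c) :
    volume {y : R4 | y ∈ nullBox x c ∧
      (∀ b < 0, ∃ i < 3, ¬ InLp 2
        (fun v => P354n.deriv (CC S u0 v0 Ui Wi i) (y.1, v, y.2.2) dv) b) ∧
      ∃ s > 0, ∀ w ∈ nullBox (y.1, 0, y.2.2) s, ∀ b, P354n.cv b = 0 → ∀ i < 3, ∃ j < 3,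
        s * |P354n.deriv (fun y => P354n.deriv (CC S u0 v0 Ui Wi i) y dv) w b| ≤
          ((fun _ => 2 * K ^ 2) (P354n.cv w) + |P354n.deriv (CC S u0 v0 Ui Wi j) w dv|) * ‖b‖} ≠ 0 := by
  have hO : IsOpen (Metric.ball x c ∩ TT U W u0 v0) := Metric.isOpen_ball.inter (isOpen_TT _ _ _ _)
  refine fun h0 => hO.measure_ne_zero volume ⟨x, Metric.mem_ball_self hc, hx⟩
    (measure_mono_null (fun y hy => ?_) h0)
  obtain ⟨y1, y2, y3⟩ := hy
  refine ⟨⟨by rwa [← dist_eq_norm], y3.2⟩,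
    fun b hb => ⟨0, by norm_num, not_L2 h hU hW hE hV hB y2 hb⟩, ?_⟩
  have W0 := hW.neg v0
  obtain ⟨s, s0, s1, s2, s3, s4⟩ : ∃ s > 0, s ≤ 1 / 4 ∧ s ≤ y.1 - U u0 ∧ s ≤ -y.1 ∧ s ≤ -W v0 :=
    ⟨min (1 / 4) (min (y.1 - U u0) (min (-y.1) (-W v0))),
      lt_min (by norm_num) (lt_min (by linarith [y2.1]) (lt_min (by linarith [y2.2]) (by linarith))),
      min_le_left _ _, (min_le_right _ _).trans (min_le_left _ _),
      (min_le_right _ _).trans ((min_le_right _ _).trans (min_le_left _ _)),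
      (min_le_right _ _).trans ((min_le_right _ _).trans (min_le_right _ _))⟩
  refine ⟨s, s0, fun w hw b hb i hi => ⟨0, by norm_num, ?_⟩⟩
  have w1 := abs_lt.1 ((abs_1 _).trans_lt hw.1)
  have w2 := abs_lt.1 ((abs_2 _).trans_lt hw.1)
  simp only [Prod.fst_sub, Prod.snd_sub, sub_zero] at w1 w2
  have hT : w ∈ TT U W u0 v0 := ⟨⟨by linarith [w1.1], by linarith [w1.2]⟩, by linarith [w2.1], hw.2⟩
  have k := second h hU hW hE hT hb
  have b0 := norm_nonneg b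
  have d0 := abs_nonneg (P354n.deriv (CA S Ui Wi) w dv)
  have k2 : s * |P354n.deriv (fun y => P354n.deriv (CA S Ui Wi) y dv) w b| ≤
      (2 * K ^ 2 + |P354n.deriv (CA S Ui Wi) w dv|) * ‖b‖ := by
    calc _ ≤ 1 / 4 * ((2 * K ^ 2 + 4 * |P354n.deriv (CA S Ui Wi) w dv|) * ‖b‖) := by gcongr
      _ ≤ _ := by nlinarith [mul_nonneg (sq_nonneg K) b0]
  obtain rfl | rfl | rfl : i = 0 ∨ i = 1 ∨ i = 2 := by omega
  · exact k2
  · simp only [CC_1, deriv_zero, abs_zero, mul_zero]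
    positivity
  · exact k2

end Vale.Agent.P354G
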